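import Vale.Agent.P227.ZonoidDefs

open MeasureTheory Set Metric Filter Topology
open scoped ENNReal NNReal Pointwise

namespace Vale.Agent.P227

/-- Euclidean space -/
abbrev EV (n : ℕ) := EuclideanSpace ℝ (Fin n)

variable {n : ℕ}

theorem SymConvexBody.zero_mem_int {K : Set (EV n)} (hK : SymConvexBody K) :
    (0 : EV n) ∈ interior K := by
  obtain ⟨x, hx⟩ := hK.nonempty_interior
  have hneg : (Homeomorph.neg (EV n)) ⁻¹' K = K := by
    ext y
    constructor
    · intro hy
      have := hK.symm _ hy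
      simpa using this
    · intro hy
      exact hK.symm _ hy
  have hx' : -x ∈ interior K := by
    have h1 := (Homeomorph.neg (EV n)).preimage_interior K
    rw [hneg] at h1
    have h2 : x ∈ (Homeomorph.neg (EV n)) ⁻¹' interior K := by rw [h1]; exact hx
    exact h2
  have := hK.convex.interior hx hx' (by norm_num : (0 : ℝ) ≤ 1 / 2)
    (by norm_num : (0 : ℝ) ≤ 1 / 2) (by norm_num)
  simpa using this

theorem SymConvexBody.nhds {K : Set (EV n)} (hK : SymConvexBody K) : K ∈ 𝓝 (0 : EV n) :=
  mem_interior_iff_mem_nhds.1 hK.zero_mem_int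

theorem SymConvexBody.zero_mem {K : Set (EV n)} (hK : SymConvexBody K) : (0 : EV n) ∈ K :=
  interior_subset hK.zero_mem_int

theorem SymConvexBody.exists_ball {K : Set (EV n)} (hK : SymConvexBody K) :
    ∃ r : ℝ, 0 < r ∧ closedBall (0 : EV n) r ⊆ K := by
  obtain ⟨r, hr0, hr⟩ := Metric.nhds_basis_closedBall.mem_iff.1 hK.nhds
  exact ⟨r, hr0, hr⟩

theorem SymConvexBody.exists_bound {K : Set (EV n)} (hK : SymConvexBody K) :
    ∃ R : ℝ, 0 < R ∧ ∀ x ∈ K, ‖x‖ ≤ R :=
  hK.isCompact.isBounded.exists_pos_norm_le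

theorem bddAbove_inner {K : Set (EV n)} (hK : IsCompact K) (u : EV n) :
    BddAbove ((fun x => inner ℝ x u) '' K) :=
  (hK.image (by fun_prop)).bddAbove

theorem inner_le_supportFn {K : Set (EV n)} (hK : IsCompact K) {x : EV n} (hx : x ∈ K)
    (u : EV n) : inner ℝ x u ≤ supportFn K u :=
  le_csSup (bddAbove_inner hK u) ⟨x, hx, rfl⟩

theorem supportFn_le {K : Set (EV n)} (hne : K.Nonempty) {u : EV n} {c : ℝ}
    (h : ∀ x ∈ K, inner ℝ x u ≤ c) : supportFn K u ≤ c := by
  apply csSup_le (hne.image _)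
  rintro _ ⟨x, hx, rfl⟩
  exact h x hx

theorem exists_supportFn {K : Set (EV n)} (hK : IsCompact K) (hne : K.Nonempty) (u : EV n) :
    ∃ x ∈ K, inner ℝ x u = supportFn K u := by
  obtain ⟨x, hx, hx2⟩ := (hK.image (f := fun x => inner ℝ x u) (by fun_prop)).sSup_mem
    (hne.image _)
  exact ⟨x, hx, hx2⟩

theorem supportFn_smul {K : Set (EV n)} (hK : IsCompact K) (hne : K.Nonempty) {r : ℝ}
    (hr : 0 ≤ r) (u : EV n) : supportFn K (r • u) = r * supportFn K u := by
  apply le_antisymm
  · apply supportFn_le hne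
    intro x hx
    rw [inner_smul_right]
    exact mul_le_mul_of_nonneg_left (inner_le_supportFn hK hx u) hr
  · obtain ⟨x, hx, hx2⟩ := exists_supportFn hK hne u
    rw [← hx2, ← inner_smul_right]
    exact inner_le_supportFn hK hx _

theorem supportFn_zero {K : Set (EV n)} (hK : IsCompact K) (hne : K.Nonempty) :
    supportFn K 0 = 0 := by
  have := supportFn_smul hK hne le_rfl (0 : EV n)
  simpa using this

theorem supportFn_add_le {K : Set (EV n)} (hK : IsCompact K) (hne : K.Nonempty) (u v : EV n) :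
    supportFn K (u + v) ≤ supportFn K u + supportFn K v := by
  apply supportFn_le hne
  intro x hx
  rw [inner_add_right]
  exact add_le_add (inner_le_supportFn hK hx u) (inner_le_supportFn hK hx v)

theorem SymConvexBody.supportFn_neg {K : Set (EV n)} (hK : SymConvexBody K) (u : EV n) :
    supportFn K (-u) = supportFn K u := by
  have key : ∀ w : EV n, supportFn K (-w) ≤ supportFn K w := by
    intro w
    apply supportFn_le ⟨0, hK.zero_mem⟩
    intro x hx
    rw [inner_neg_right, ← inner_neg_left]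
    exact inner_le_supportFn hK.isCompact (hK.symm x hx) w
  apply le_antisymm (key u)
  have := key (-u)
  rwa [neg_neg] at this

theorem supportFn_mono {K L : Set (EV n)} (hL : IsCompact L) (hne : K.Nonempty) (h : K ⊆ L)
    (u : EV n) : supportFn K u ≤ supportFn L u :=
  supportFn_le hne fun _ hx => inner_le_supportFn hL (h hx) u

theorem SymConvexBody.supportFn_ge {K : Set (EV n)} {r : ℝ} (hr : 0 < r)
    (hK : IsCompact K) (hb : closedBall (0 : EV n) r ⊆ K) (u : EV n) :
    r * ‖u‖ ≤ supportFn K u := by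
  by_cases hu : u = 0
  · subst hu
    have := inner_le_supportFn hK (hb (mem_closedBall_self hr.le)) (0 : EV n)
    simpa using this
  · have hu' : 0 < ‖u‖ := norm_pos_iff.2 hu
    have hmem : (r / ‖u‖) • u ∈ K := by
      apply hb
      rw [mem_closedBall_zero_iff, norm_smul, norm_div, norm_norm, Real.norm_of_nonneg hr.le]
      field_simp
      exact le_rfl
    have := inner_le_supportFn hK hmem u
    rw [real_inner_smul_left, real_inner_self_eq_norm_sq] at this
    calc r * ‖u‖ = r / ‖u‖ * ‖u‖ ^ 2 := by field_simp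
      _ ≤ _ := this

theorem SymConvexBody.supportFn_pos {K : Set (EV n)} (hK : SymConvexBody K) {u : EV n}
    (hu : u ≠ 0) : 0 < supportFn K u := by
  obtain ⟨r, hr0, hr⟩ := hK.exists_ball
  have := SymConvexBody.supportFn_ge hr0 hK.isCompact hr u
  have h2 : 0 < r * ‖u‖ := mul_pos hr0 (norm_pos_iff.2 hu)
  linarith

theorem SymConvexBody.supportFn_nonneg {K : Set (EV n)} (hK : SymConvexBody K) (u : EV n) :
    0 ≤ supportFn K u := by
  have := inner_le_supportFn hK.isCompact hK.zero_mem u
  simpa using this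

theorem SymConvexBody.supportFn_le_norm {K : Set (EV n)} (hK : SymConvexBody K) {R : ℝ}
    (hR : ∀ x ∈ K, ‖x‖ ≤ R) (u : EV n) : supportFn K u ≤ R * ‖u‖ := by
  apply supportFn_le ⟨0, hK.zero_mem⟩
  intro x hx
  exact (real_inner_le_norm x u).trans (mul_le_mul_of_nonneg_right (hR x hx) (norm_nonneg _))

theorem SymConvexBody.continuous_supportFn {K : Set (EV n)} (hK : SymConvexBody K) :
    Continuous (supportFn K) := by
  obtain ⟨R, hR0, hR⟩ := hK.exists_bound
  have : LipschitzWith R.toNNReal (supportFn K) := by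
    apply LipschitzWith.of_le_add_mul
    intro u v
    have h1 := supportFn_add_le hK.isCompact ⟨0, hK.zero_mem⟩ v (u - v)
    have h2 := hK.supportFn_le_norm hR (u - v)
    rw [Real.coe_toNNReal _ hR0.le, dist_eq_norm]
    have h3 : v + (u - v) = u := by abel
    rw [h3] at h1
    linarith
  exact this.continuous

/-- a closed convex set containing the origin is cut out by its support function -/
theorem mem_of_inner_le_supportFn {K : Set (EV n)} (hK : IsCompact K) (hc : Convex ℝ K)
    (hne : K.Nonempty) {x : EV n} (h : ∀ u : EV n, ‖u‖ = 1 → inner ℝ x u ≤ supportFn K u) :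
    x ∈ K := by
  by_contra hx
  obtain ⟨f, c, hf1, hf2⟩ := geometric_hahn_banach_closed_point hc hK.isClosed hx
  set w := (InnerProductSpace.toDual ℝ (EV n)).symm f with hw
  have hfw : ∀ y, f y = inner ℝ y w := by
    intro y
    rw [real_inner_comm]
    exact (InnerProductSpace.toDual_symm_apply).symm
  have hw0 : w ≠ 0 := by
    intro h0
    obtain ⟨y, hy⟩ := hne
    have h1 := hf1 y hy
    rw [hfw, h0] at h1 hf2
    simp at h1 hf2
    linarith
  have hw1 : 0 < ‖w‖ := norm_pos_iff.2 hw0
  have h1 := h (‖w‖⁻¹ • w) (by rw [norm_smul, norm_inv, norm_norm]; field_simp)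
  rw [supportFn_smul hK hne (by positivity), inner_smul_right] at h1
  have h2 : inner ℝ x w ≤ supportFn K w := le_of_mul_le_mul_left h1 (by positivity)
  have h3 : supportFn K w ≤ c := by
    apply supportFn_le hne
    intro y hy
    rw [← hfw]
    exact (hf1 y hy).le
  rw [hfw] at hf2
  linarith

theorem SymConvexBody.wulff_supportFn {K : Set (EV n)} (hK : SymConvexBody K) :
    wulff (supportFn K) = K := by
  ext x
  constructor
  · intro hx
    exact mem_of_inner_le_supportFn hK.isCompact hK.convex ⟨0, hK.zero_mem⟩ hx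
  · intro hx u _
    exact inner_le_supportFn hK.isCompact hx u

/-- Wulff bodies of positive even continuous functions are symmetric convex bodies. -/
theorem wulff_symConvexBody {f : EV n → ℝ} {a b : ℝ} (ha : 0 < a)
    (hfa : ∀ u, ‖u‖ = 1 → a ≤ f u) (hfb : ∀ u, ‖u‖ = 1 → f u ≤ b)
    (heven : ∀ u, f (-u) = f u) : SymConvexBody (wulff f) where
  convex := by
    intro x hx y hy s t hs ht hst u hu
    rw [inner_add_left, real_inner_smul_left, real_inner_smul_left]
    calc s * inner ℝ x u + t * inner ℝ y u ≤ s * f u + t * f u :=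
          add_le_add (mul_le_mul_of_nonneg_left (hx u hu) hs)
            (mul_le_mul_of_nonneg_left (hy u hu) ht)
      _ = (s + t) * f u := by ring
      _ = f u := by rw [hst, one_mul]
  isCompact := by
    apply Metric.isCompact_of_isClosed_isBounded
    · have : wulff f = ⋂ (u : EV n) (_ : ‖u‖ = 1), {x | inner ℝ x u ≤ f u} := by
        ext x
        simp [wulff]
      rw [this]
      refine isClosed_iInter fun u => isClosed_iInter fun _ => ?_
      exact isClosed_le (by fun_prop) continuous_const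
    · rw [isBounded_iff_forall_norm_le]
      refine ⟨|b|, fun x hx => ?_⟩
      by_cases hx0 : x = 0
      · subst hx0; simp
      · have hx1 : 0 < ‖x‖ := norm_pos_iff.2 hx0
        have h1 : ‖‖x‖⁻¹ • x‖ = 1 := by rw [norm_smul, norm_inv, norm_norm]; field_simp
        have h2 := hx _ h1
        rw [inner_smul_right, real_inner_self_eq_norm_sq] at h2
        have h3 := hfb _ h1
        have h4 : ‖x‖⁻¹ * ‖x‖ ^ 2 = ‖x‖ := by field_simp
        rw [h4] at h2
        exact (h2.trans h3).trans (le_abs_self b)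
  nonempty_interior := by
    refine ⟨0, ?_⟩
    rw [mem_interior]
    refine ⟨ball 0 a, ?_, isOpen_ball, mem_ball_self ha⟩
    intro x hx u hu
    rw [mem_ball_zero_iff] at hx
    calc inner ℝ x u ≤ ‖x‖ * ‖u‖ := real_inner_le_norm x u
      _ = ‖x‖ := by rw [hu, mul_one]
      _ ≤ a := hx.le
      _ ≤ f u := hfa u hu
  symm := by
    intro x hx u hu
    rw [inner_neg_left, ← inner_neg_right, ← heven]
    exact hx (-u) (by rwa [norm_neg])

/-- gauge of a Wulff body is attained by some direction -/
theorem gauge_wulff_attained (hn : 0 < n) {f : EV n → ℝ} (hf : ContinuousOn f (sphere 0 1))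
    {a b : ℝ}
    (ha : 0 < a) (hfa : ∀ u, ‖u‖ = 1 → a ≤ f u) (hfb : ∀ u, ‖u‖ = 1 → f u ≤ b)
    (heven : ∀ u, f (-u) = f u) (x : EV n) :
    (∀ u : EV n, ‖u‖ = 1 → inner ℝ x u ≤ gauge (wulff f) x * f u) ∧
    ∃ u : EV n, ‖u‖ = 1 ∧ inner ℝ x u = gauge (wulff f) x * f u := by
  have hW := wulff_symConvexBody ha hfa hfb heven
  set g := gauge (wulff f) x with hg
  have hg0 : 0 ≤ g := gauge_nonneg _
  have hle : ∀ u : EV n, ‖u‖ = 1 → inner ℝ x u ≤ g * f u := by
    intro u hu
    have hfu : 0 < f u := lt_of_lt_of_le ha (hfa u hu)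
    have key : ∀ r : ℝ, g < r → inner ℝ x u ≤ r * f u := by
      intro r hr
      obtain ⟨c, hc0, hcr, y, hy, hyx⟩ := exists_lt_of_gauge_lt (absorbent_nhds_zero hW.nhds) hr
      have h1 := hy u hu
      have h2 : x = c • y := hyx.symm
      rw [h2, real_inner_smul_left]
      calc c * inner ℝ y u ≤ c * f u := mul_le_mul_of_nonneg_left h1 hc0.le
        _ ≤ r * f u := mul_le_mul_of_nonneg_right hcr.le hfu.le
    have h3 : inner ℝ x u / f u ≤ g := by
      apply le_of_forall_gt_imp_ge_of_dense
      intro r hr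
      rw [div_le_iff₀ hfu]
      exact key r hr
    rwa [div_le_iff₀ hfu] at h3
  refine ⟨hle, ?_⟩
  have hcomp : IsCompact (sphere (0 : EV n) 1) := isCompact_sphere _ _
  have hne : (sphere (0 : EV n) 1).Nonempty := by
    refine ⟨EuclideanSpace.single ⟨0, hn⟩ (1 : ℝ), ?_⟩
    simp
  have hcont : ContinuousOn (fun u : EV n => inner ℝ x u / f u) (sphere 0 1) := by
    apply ContinuousOn.div (by fun_prop) hf
    intro u hu
    have := hfa u (mem_sphere_zero_iff_norm.1 hu)
    linarith
  obtain ⟨u, hu, hmax⟩ := hcomp.exists_isMaxOn hne hcont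
  have hu1 : ‖u‖ = 1 := mem_sphere_zero_iff_norm.1 hu
  have hfu : 0 < f u := lt_of_lt_of_le ha (hfa u hu1)
  refine ⟨u, hu1, le_antisymm (hle u hu1) ?_⟩
  set m := inner ℝ x u / f u with hm
  have hmx : ∀ v : EV n, ‖v‖ = 1 → inner ℝ x v ≤ m * f v := by
    intro v hv
    have h1 : inner ℝ x v / f v ≤ m := hmax (mem_sphere_zero_iff_norm.2 hv)
    have hfv : 0 < f v := lt_of_lt_of_le ha (hfa v hv)
    rwa [div_le_iff₀ hfv] at h1
  have hm0 : 0 ≤ m := by
    have h1 := hmx u hu1
    have h2 := hmx (-u) (by rwa [norm_neg])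
    rw [heven, inner_neg_right] at h2
    by_contra hneg
    push Not at hneg
    have : m * f u < 0 := mul_neg_of_neg_of_pos hneg hfu
    linarith
  have hgm : g ≤ m := by
    apply le_of_forall_gt_imp_ge_of_dense
    intro r hr
    have hr0 : 0 < r := lt_of_le_of_lt hm0 hr
    apply gauge_le_of_mem hr0.le
    rw [mem_smul_set_iff_inv_smul_mem₀ hr0.ne']
    intro v hv
    have hfv : 0 < f v := lt_of_lt_of_le ha (hfa v hv)
    rw [real_inner_smul_left, inv_mul_le_iff₀ hr0]
    exact (hmx v hv).trans (mul_le_mul_of_nonneg_right hr.le hfv.le)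
  have : inner ℝ x u = m * f u := by rw [hm]; field_simp
  rw [this]
  exact mul_le_mul_of_nonneg_right hgm hfu.le

end Vale.Agent.P227
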