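import Vale.Agent.P227.ZonoIneq

open MeasureTheory Set
open scoped ENNReal NNReal Pointwise

namespace Vale.Agent.P227

theorem Zon_add_seg {E : Type*} [AddCommGroup E] [Module ℝ E] {N : ℕ} (v : Fin N → E)
    (j : Fin N) : Zon v + seg (v j) = Zon (fun k => (if k = j then (2 : ℝ) else 1) • v k) := by
  ext x
  simp only [mem_add]
  constructor
  · rintro ⟨_, ⟨c, hc, rfl⟩, _, ⟨d, hd, rfl⟩, rfl⟩
    refine ⟨Function.update c j ((c j + d) / 2), ?_, ?_⟩
    · intro k
      by_cases hk : k = j
      · subst hk
        simp only [Function.update_self]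
        rw [abs_div, abs_of_pos (by norm_num : (0 : ℝ) < 2), div_le_one (by norm_num)]
        calc |c k + d| ≤ |c k| + |d| := abs_add_le _ _
          _ ≤ 1 + 1 := add_le_add (hc k) hd
          _ = 2 := by norm_num
      · simpa [Function.update_of_ne hk] using hc k
    · rw [← Finset.add_sum_erase _ _ (Finset.mem_univ j), ← Finset.add_sum_erase _
        (fun k => Function.update c j ((c j + d) / 2) k • (if k = j then (2 : ℝ) else 1) • v k)
        (Finset.mem_univ j)]
      have : ∑ k ∈ Finset.univ.erase j,
          Function.update c j ((c j + d) / 2) k • (if k = j then (2 : ℝ) else 1) • v k =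
          ∑ k ∈ Finset.univ.erase j, c k • v k := by
        apply Finset.sum_congr rfl
        intro k hk
        have hk' : k ≠ j := (Finset.mem_erase.1 hk).1
        simp [hk']
      rw [this]
      simp only [Function.update_self, if_true, smul_smul]
      rw [div_mul_cancel₀ _ (by norm_num : (2 : ℝ) ≠ 0), add_smul]
      abel
  · rintro ⟨c, hc, rfl⟩
    refine ⟨∑ k, c k • v k, ⟨c, hc, rfl⟩, c j • v j, ⟨c j, hc j, rfl⟩, ?_⟩
    rw [← Finset.add_sum_erase _ _ (Finset.mem_univ j), ← Finset.add_sum_erase _
        (fun k => c k • (if k = j then (2 : ℝ) else 1) • v k)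
        (Finset.mem_univ j)]
    have : ∑ k ∈ Finset.univ.erase j, c k • (if k = j then (2 : ℝ) else 1) • v k =
          ∑ k ∈ Finset.univ.erase j, c k • v k := by
      apply Finset.sum_congr rfl
      intro k hk
      have hk' : k ≠ j := (Finset.mem_erase.1 hk).1
      simp [hk']
    rw [this]
    simp only [if_true, two_smul, smul_add]
    abel

/-- Euler identity and the weighted arithmetic-geometric inequality for zonotope volumes. -/
theorem zono_amgm {n N : ℕ} (v : Fin N → Fin n → ℝ) (hZ : 0 < vol (Zon v)) :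
    (∑ j, pp (Zon v) (v j) = n * vol (Zon v)) ∧
    ∀ t : Fin N → ℝ, (∀ j, 0 < t j) →
      0 < vol (Zon (fun j => t j • v j)) ∧
      Real.log (vol (Zon v)) + (∑ j, pp (Zon v) (v j) * Real.log (t j)) / vol (Zon v) ≤
        Real.log (vol (Zon (fun j => t j • v j))) := by
  obtain ⟨ι, hι, a, e, ha, he, hvol⟩ := zonoPoly N n v
  have hF1 : vol (Zon v) = ∑ i, a i := by
    have := hvol (fun _ => 1) (by simp)
    simpa using this
  have hpp : ∀ j, pp (Zon v) (v j) = ∑ i, if j ∈ e i then a i else 0 := by
    intro j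
    rw [pp, Zon_add_seg, hvol _ (by intro k; split_ifs <;> norm_num), hF1,
      ← Finset.sum_sub_distrib]
    apply Finset.sum_congr rfl
    intro i _
    rw [Finset.prod_ite_eq' (e i) j (fun _ => (2 : ℝ))]
    split_ifs <;> ring
  have hsum : ∀ g : Fin N → ℝ, ∑ j, pp (Zon v) (v j) * g j = ∑ i, a i * ∑ j ∈ e i, g j := by
    intro g
    simp_rw [hpp, Finset.sum_mul]
    rw [Finset.sum_comm]
    apply Finset.sum_congr rfl
    intro i _
    rw [Finset.mul_sum]
    simp only [ite_mul, zero_mul]
    rw [← Finset.sum_filter]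
    apply Finset.sum_congr
    · ext k; simp
    · intro k _; rfl
  refine ⟨?_, ?_⟩
  · have := hsum (fun _ => 1)
    simp only [mul_one, Finset.sum_const, nsmul_eq_mul] at this
    rw [this, hF1, Finset.mul_sum]
    apply Finset.sum_congr rfl
    intro i _
    rw [he i]
    ring
  · intro t ht
    have hprod : ∀ i, 0 < ∏ j ∈ e i, t j := fun i => Finset.prod_pos fun j _ => ht j
    have hjen := strictConcaveOn_log_Ioi.concaveOn.le_map_sum (t := Finset.univ)
      (w := fun i => a i / vol (Zon v)) (p := fun i => ∏ j ∈ e i, t j)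
      (fun i _ => div_nonneg (ha i) hZ.le) (by rw [← Finset.sum_div, ← hF1, div_self hZ.ne'])
      (fun i _ => hprod i)
    simp only [smul_eq_mul] at hjen
    have e1 : ∑ i, a i / vol (Zon v) * ∏ j ∈ e i, t j =
        vol (Zon (fun j => t j • v j)) / vol (Zon v) := by
      rw [hvol t (fun j => (ht j).le), Finset.sum_div]
      apply Finset.sum_congr rfl
      intro i _
      ring
    have e2 : ∑ i, a i / vol (Zon v) * Real.log (∏ j ∈ e i, t j) =
        (∑ j, pp (Zon v) (v j) * Real.log (t j)) / vol (Zon v) := by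
      rw [hsum, Finset.sum_div]
      apply Finset.sum_congr rfl
      intro i _
      rw [Real.log_prod (fun j _ => (ht j).ne')]
      ring
    rw [e1, e2] at hjen
    have hpos : 0 < vol (Zon (fun j => t j • v j)) := by
      rw [hvol t (fun j => (ht j).le)]
      obtain ⟨i, hi⟩ : ∃ i, 0 < a i := by
        by_contra hcon
        push Not at hcon
        have : ∑ i, a i ≤ 0 := Finset.sum_nonpos fun i _ => hcon i
        linarith
      exact Finset.sum_pos' (fun k _ => mul_nonneg (ha k) (hprod k).le)
        ⟨i, Finset.mem_univ i, mul_pos hi (hprod i)⟩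
    refine ⟨hpos, ?_⟩
    rw [Real.log_div hpos.ne' hZ.ne'] at hjen
    linarith

/-- generalised Loomis-Whitney inequality relative to a zonotope -/
theorem lw {n N : ℕ} (v : Fin N → Fin (n + 1) → ℝ) (hZ : 0 < vol (Zon v))
    {M : Set (Fin (n + 1) → ℝ)} (hM : IsCompact M) (hMc : Convex ℝ M)
    (h0 : (0 : Fin (n + 1) → ℝ) ∈ interior M) :
    n * vol (Zon v) * (Real.log (vol M) - Real.log (vol (Zon v))) ≤
      ∑ j, pp (Zon v) (v j) * (Real.log (pp M (v j)) - Real.log (pp (Zon v) (v j))) := by
  obtain ⟨heuler, hamgm⟩ := zono_amgm v hZ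
  have hMpos : 0 < vol M := vol_pos_of_interior hM ⟨0, h0⟩
  have hZc : IsCompact (Zon v) := Zon_isCompact v
  have hZv : Convex ℝ (Zon v) := Zon_convex v
  have hZi := interior_of_vol_pos hZc hZv hZ
  set t : Fin N → ℝ := fun j => if v j = 0 then 1 else
    pp (Zon v) (v j) / pp M (v j) * (vol M / vol (Zon v)) with ht
  have htpos : ∀ j, 0 < t j := by
    intro j
    simp only [ht]
    split_ifs with hj
    · norm_num
    · have h1 := pp_pos hM hMc ⟨0, h0⟩ hj
      have h2 := pp_pos hZc hZv hZi hj
      positivity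
  obtain ⟨hCpos, hC⟩ := hamgm t htpos
  have hmix := mixed_ineq hM hMc h0 (fun j => t j • v j) hCpos
  have hP : ∑ j, pp M (t j • v j) = (n + 1) * vol M := by
    have : ∀ j, pp M (t j • v j) = pp (Zon v) (v j) * (vol M / vol (Zon v)) := by
      intro j
      rw [pp_smul_right hM hMc _ (htpos j).le]
      simp only [ht]
      split_ifs with hj
      · rw [hj, pp_zero, pp_zero]; ring
      · have h1 := pp_pos hM hMc ⟨0, h0⟩ hj
        field_simp
    simp_rw [this]
    rw [← Finset.sum_mul, heuler]
    push_cast
    field_simp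
  rw [hP, mul_div_assoc, div_self hMpos.ne', mul_one] at hmix
  have hlogt : ∀ j, pp (Zon v) (v j) * Real.log (t j) =
      pp (Zon v) (v j) * (Real.log (pp (Zon v) (v j)) - Real.log (pp M (v j))) +
      pp (Zon v) (v j) * (Real.log (vol M) - Real.log (vol (Zon v))) := by
    intro j
    by_cases hj : v j = 0
    · rw [hj, pp_zero]; ring
    · have h1 := pp_pos hM hMc ⟨0, h0⟩ hj
      have h2 := pp_pos hZc hZv hZi hj
      simp only [ht, if_neg hj]
      rw [Real.log_mul (by positivity) (by positivity), Real.log_div h2.ne' h1.ne',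
        Real.log_div hMpos.ne' hZ.ne']
      ring
  have hsum : ∑ j, pp (Zon v) (v j) * Real.log (t j) =
      - ∑ j, pp (Zon v) (v j) * (Real.log (pp M (v j)) - Real.log (pp (Zon v) (v j))) +
      (n + 1) * vol (Zon v) * (Real.log (vol M) - Real.log (vol (Zon v))) := by
    simp_rw [hlogt]
    rw [Finset.sum_add_distrib, ← Finset.sum_mul, heuler, ← Finset.sum_neg_distrib]
    push_cast
    congr 1
    apply Finset.sum_congr rfl
    intro j _
    ring
  rw [hsum] at hC
  have h7 : (- ∑ j, pp (Zon v) (v j) * (Real.log (pp M (v j)) - Real.log (pp (Zon v) (v j))) +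
      (n + 1) * vol (Zon v) * (Real.log (vol M) - Real.log (vol (Zon v)))) / vol (Zon v) ≤
      Real.log (vol M) - Real.log (vol (Zon v)) := by linarith
  rw [div_le_iff₀ hZ] at h7
  nlinarith

/-- support function on linear functionals -/
noncomputable def hs {E : Type*} [AddCommGroup E] [Module ℝ E] (K : Set E) (f : E →ₗ[ℝ] ℝ) : ℝ :=
  sSup (f '' K)

/-- origin-symmetric convex body -/
structure SCB {E : Type*} [AddCommGroup E] [Module ℝ E] [TopologicalSpace E] (K : Set E) :
    Prop where
  convex : Convex ℝ K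
  compact : IsCompact K
  symm : ∀ x ∈ K, -x ∈ K
  int : (interior K).Nonempty

theorem SCB.zero_mem {n : ℕ} {K : Set (Fin n → ℝ)} (hK : SCB K) : (0 : Fin n → ℝ) ∈ interior K := by
  obtain ⟨x, hx⟩ := hK.int
  have hneg : (Homeomorph.neg (Fin n → ℝ)) ⁻¹' K = K := by
    ext y
    constructor
    · intro hy
      have := hK.symm _ hy
      simpa using this
    · intro hy
      exact hK.symm _ hy
  have hx' : -x ∈ interior K := by
    have h1 := (Homeomorph.neg (Fin n → ℝ)).preimage_interior K
    rw [hneg] at h1
    have h2 : x ∈ (Homeomorph.neg (Fin n → ℝ)) ⁻¹' interior K := by rw [h1]; exact hx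
    exact h2
  have := hK.convex.interior hx hx' (by norm_num : (0 : ℝ) ≤ 1 / 2)
    (by norm_num : (0 : ℝ) ≤ 1 / 2) (by norm_num)
  simpa using this

theorem SCB.image {n m : ℕ} {K : Set (Fin n → ℝ)} (hK : SCB K)
    (φ : (Fin n → ℝ) →ₗ[ℝ] (Fin m → ℝ)) (hφ : Function.Surjective φ) : SCB (φ '' K) where
  convex := hK.convex.linear_image φ
  compact := hK.compact.image (LinearMap.continuous_of_finiteDimensional _)
  symm := by
    rintro _ ⟨x, hx, rfl⟩
    exact ⟨-x, hK.symm x hx, by simp⟩
  int := by
    have hopen : IsOpenMap φ := LinearMap.isOpenMap_of_finiteDimensional φ hφ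
    obtain ⟨x, hx⟩ := hK.int
    refine ⟨φ x, ?_⟩
    rw [mem_interior]
    exact ⟨φ '' interior K, image_mono interior_subset, hopen _ isOpen_interior, ⟨x, hx, rfl⟩⟩

theorem hs_image {n m : ℕ} (K : Set (Fin n → ℝ)) (φ : (Fin n → ℝ) →ₗ[ℝ] (Fin m → ℝ))
    (f : (Fin m → ℝ) →ₗ[ℝ] ℝ) : hs (φ '' K) f = hs K (f.comp φ) := by
  unfold hs
  rw [image_image]
  rfl

theorem vol_one_dim (r : ℝ) (hr : 0 ≤ r) : vol {x : Fin 1 → ℝ | |x 0| ≤ r} = 2 * r := by
  have : {x : Fin 1 → ℝ | |x 0| ≤ r} = Icc (fun _ => -r) (fun _ => r) := by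
    ext x
    simp only [mem_ofPred_eq, mem_Icc, Pi.le_def, Fin.forall_fin_one, abs_le]
  rw [this, vol, Real.volume_Icc_pi]
  simp only [Finset.univ_unique, Fin.default_eq_zero, Fin.isValue, Finset.prod_const,
    Finset.card_singleton, pow_one, sub_neg_eq_add]
  rw [ENNReal.toReal_ofReal (by linarith)]
  ring

/-- **Lemma Z.** If a zonotope dominates the geometric mean of two support functions then its
volume dominates the geometric mean of the volumes. -/
theorem lemmaZ {s t : ℝ} (hs0 : 0 < s) (ht0 : 0 < t) (hst : s + t = 1) (n : ℕ) :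
    ∀ (N : ℕ) (v : Fin N → Fin (n + 1) → ℝ) (K L : Set (Fin (n + 1) → ℝ)),
      SCB K → SCB L →
      (∀ f : (Fin (n + 1) → ℝ) →ₗ[ℝ] ℝ, hs K f ^ s * hs L f ^ t ≤ ∑ j, |f (v j)|) →
      0 < vol (Zon v) →
      s * Real.log (vol K) + t * Real.log (vol L) ≤ Real.log (vol (Zon v)) := by
  induction n with
  | zero =>
    intro N v K L hK hL h hZ
    have hKv : ∀ K : Set (Fin 1 → ℝ), SCB K → 0 < vol K ∧
        vol K ≤ 2 * hs K (LinearMap.proj 0) := by
      intro K hK
      have hbdd : BddAbove ((LinearMap.proj 0 : (Fin 1 → ℝ) →ₗ[ℝ] ℝ) '' K) :=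
        (hK.compact.image (LinearMap.continuous_of_finiteDimensional _)).bddAbove
      have hsub : K ⊆ {x : Fin 1 → ℝ | |x 0| ≤ hs K (LinearMap.proj 0)} := by
        intro x hx
        simp only [mem_ofPred_eq, abs_le]
        have h1 : x 0 ≤ hs K (LinearMap.proj 0) := le_csSup hbdd ⟨x, hx, rfl⟩
        have h2 : (-x) 0 ≤ hs K (LinearMap.proj 0) := le_csSup hbdd ⟨-x, hK.symm x hx, rfl⟩
        simp only [Pi.neg_apply] at h2
        constructor <;> linarith
      have h0 : 0 ≤ hs K (LinearMap.proj 0) :=
        le_csSup hbdd ⟨0, interior_subset hK.zero_mem, by simp⟩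
      refine ⟨vol_pos_of_interior hK.compact hK.int, ?_⟩
      rw [← vol_one_dim _ h0]
      apply vol_mono _ hsub
      have : {x : Fin 1 → ℝ | |x 0| ≤ hs K (LinearMap.proj 0)} =
          Icc (fun _ => -hs K (LinearMap.proj 0)) (fun _ => hs K (LinearMap.proj 0)) := by
        ext x
        simp only [mem_ofPred_eq, mem_Icc, Pi.le_def, Fin.forall_fin_one, abs_le]
      rw [this]
      exact isCompact_Icc
    obtain ⟨hK0, hK1⟩ := hKv K hK
    obtain ⟨hL0, hL1⟩ := hKv L hL
    have hZ1 : vol {x : Fin 1 → ℝ | |x 0| ≤ ∑ j, |v j 0|} ≤ vol (Zon v) := by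
      apply vol_mono (Zon_isCompact v)
      intro x hx
      simp only [mem_ofPred_eq] at hx
      set S := ∑ j, |v j 0| with hS
      have hS0 : 0 ≤ S := Finset.sum_nonneg fun j _ => abs_nonneg (v j 0)
      rcases hS0.eq_or_lt with h0 | h0
      · refine ⟨0, by simp, ?_⟩
        rw [← h0] at hx
        have : x 0 = 0 := abs_eq_zero.1 (le_antisymm hx (abs_nonneg _))
        funext i
        fin_cases i
        simpa using this
      · refine ⟨fun j => x 0 / S * (SignType.sign (v j 0) : ℝ), ?_, ?_⟩
        · intro j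
          rw [abs_mul, abs_div, abs_of_pos h0]
          have h1 : |((SignType.sign (v j 0) : SignType) : ℝ)| ≤ 1 := by
            rcases lt_trichotomy (v j 0) 0 with h | h | h
            · simp [sign_neg h]
            · simp [h]
            · simp [sign_pos h]
          calc |x 0| / S * |((SignType.sign (v j 0) : SignType) : ℝ)| ≤ 1 * 1 := by
                gcongr
                exact (div_le_one h0).2 hx
            _ = 1 := by ring
        · funext i
          fin_cases i
          simp only [Fin.zero_eta, Finset.sum_apply, Pi.smul_apply, smul_eq_mul]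
          have : ∀ j, x 0 / S * ((SignType.sign (v j 0) : SignType) : ℝ) * v j 0 =
              x 0 / S * |v j 0| := by
            intro j
            rw [mul_assoc, sign_mul_self]
          simp_rw [this]
          rw [← Finset.mul_sum, ← hS]
          field_simp
    rw [vol_one_dim _ (Finset.sum_nonneg fun j _ => abs_nonneg _)] at hZ1
    have h3 := h (LinearMap.proj 0)
    simp only [LinearMap.proj_apply] at h3
    have h4 : vol K ^ s * vol L ^ t ≤ vol (Zon v) := by
      calc vol K ^ s * vol L ^ t ≤ (2 * hs K (LinearMap.proj 0)) ^ s *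
            (2 * hs L (LinearMap.proj 0)) ^ t := by
            apply mul_le_mul (Real.rpow_le_rpow hK0.le hK1 hs0.le)
              (Real.rpow_le_rpow hL0.le hL1 ht0.le) (by positivity)
              (Real.rpow_nonneg (by linarith) _)
        _ = (2 ^ s * 2 ^ t) * (hs K (LinearMap.proj 0) ^ s * hs L (LinearMap.proj 0) ^ t) := by
            rw [Real.mul_rpow (by norm_num) (by linarith),
              Real.mul_rpow (by norm_num) (by linarith)]
            ring
        _ = 2 * (hs K (LinearMap.proj 0) ^ s * hs L (LinearMap.proj 0) ^ t) := by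
            rw [← Real.rpow_add (by norm_num), hst, Real.rpow_one]
        _ ≤ 2 * ∑ j, |v j 0| := by gcongr
        _ ≤ _ := hZ1
    have h5 := Real.log_le_log (by positivity) h4
    rw [Real.log_mul (by positivity) (by positivity), Real.log_rpow hK0, Real.log_rpow hL0] at h5
    exact h5
  | succ n ih =>
    intro N v K L hK hL h hZ
    have hZc : IsCompact (Zon v) := Zon_isCompact v
    have hZv : Convex ℝ (Zon v) := Zon_convex v
    have hZi := interior_of_vol_pos hZc hZv hZ
    have hlwK := lw v hZ hK.compact hK.convex hK.zero_mem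
    have hlwL := lw v hZ hL.compact hL.convex hL.zero_mem
    have hj : ∀ j, pp (Zon v) (v j) * (s * Real.log (pp K (v j)) + t * Real.log (pp L (v j)) -
        Real.log (pp (Zon v) (v j))) ≤ 0 := by
      intro j
      by_cases hvj : v j = 0
      · rw [hvj, pp_zero]; simp
      · have hb := pp_pos hZc hZv hZi hvj
        apply mul_nonpos_of_nonneg_of_nonpos hb.le
        obtain ⟨φ, c, hc, hφ, hform⟩ := seg_formula_pp (v j) hvj
        have e : ∀ M : Set (Fin (n + 1 + 1) → ℝ), IsCompact M → Convex ℝ M →
            pp M (v j) = c * vol (φ '' M) := by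
          intro M hM hMc
          have := hform M hM hMc 1 zero_le_one
          rwa [one_smul, one_mul] at this
        rw [e K hK.compact hK.convex, e L hL.compact hL.convex, e _ hZc hZv, Zon_image]
        have hKφ := hK.image φ hφ
        have hLφ := hL.image φ hφ
        have hZφ : 0 < vol (Zon fun k => φ (v k)) := by
          rw [e _ hZc hZv, Zon_image] at hb
          exact (mul_pos_iff_of_pos_left hc).1 hb
        have := ih N (fun k => φ (v k)) (φ '' K) (φ '' L) hKφ hLφ (by
          intro f
          rw [hs_image, hs_image]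
          exact h (f.comp φ)) hZφ
        have h1 := vol_pos_of_interior hKφ.compact hKφ.int
        have h2 := vol_pos_of_interior hLφ.compact hLφ.int
        rw [Real.log_mul hc.ne' h1.ne', Real.log_mul hc.ne' h2.ne', Real.log_mul hc.ne' hZφ.ne']
        have : s * (Real.log c + Real.log (vol (φ '' K))) +
            t * (Real.log c + Real.log (vol (φ '' L))) =
            (s + t) * Real.log c + (s * Real.log (vol (φ '' K)) + t * Real.log (vol (φ '' L))) := by
          ring
        rw [this, hst]
        linarith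
    have hsum : s * (∑ j, pp (Zon v) (v j) * (Real.log (pp K (v j)) -
          Real.log (pp (Zon v) (v j)))) +
        t * (∑ j, pp (Zon v) (v j) * (Real.log (pp L (v j)) - Real.log (pp (Zon v) (v j)))) ≤ 0 := by
      rw [Finset.mul_sum, Finset.mul_sum, ← Finset.sum_add_distrib]
      apply Finset.sum_nonpos
      intro j _
      have := hj j
      have e : s * (pp (Zon v) (v j) * (Real.log (pp K (v j)) - Real.log (pp (Zon v) (v j)))) +
          t * (pp (Zon v) (v j) * (Real.log (pp L (v j)) - Real.log (pp (Zon v) (v j)))) =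
          pp (Zon v) (v j) * (s * Real.log (pp K (v j)) + t * Real.log (pp L (v j)) -
            (s + t) * Real.log (pp (Zon v) (v j))) := by ring
      rw [e, hst, one_mul]
      exact this
    have hfin : ((n + 1 : ℕ) : ℝ) * vol (Zon v) * (s * Real.log (vol K) + t * Real.log (vol L) -
        Real.log (vol (Zon v))) ≤ 0 := by
      have e : ((n + 1 : ℕ) : ℝ) * vol (Zon v) * (s * Real.log (vol K) + t * Real.log (vol L) -
          Real.log (vol (Zon v))) =
          s * (((n + 1 : ℕ) : ℝ) * vol (Zon v) * (Real.log (vol K) - Real.log (vol (Zon v)))) +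
          t * (((n + 1 : ℕ) : ℝ) * vol (Zon v) * (Real.log (vol L) - Real.log (vol (Zon v)))) := by
        have : t = 1 - s := by linarith
        rw [this]
        ring
      rw [e]
      refine le_trans (add_le_add (mul_le_mul_of_nonneg_left hlwK hs0.le)
        (mul_le_mul_of_nonneg_left hlwL ht0.le)) hsum
    have hpos : (0 : ℝ) < ((n + 1 : ℕ) : ℝ) * vol (Zon v) := by positivity
    have := (mul_nonpos_iff_pos_imp_nonpos.1 hfin).1 hpos
    linarith

end Vale.Agent.P227
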