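import Vale.Agent.P227.Body
import Vale.Agent.P227.LW

open MeasureTheory Set Metric Filter Topology
open scoped ENNReal NNReal Pointwise

namespace Vale.Agent.P227

variable {n : ℕ}

/-- coordinates -/
noncomputable def crd (n : ℕ) : EV n ≃L[ℝ] (Fin n → ℝ) := EuclideanSpace.equiv (Fin n) ℝ

theorem vol_crd {K : Set (EV n)} (hK : MeasurableSet K) : vol (crd n '' K) = evol K := by
  have h := (PiLp.volume_preserving_toLp (Fin n)).measure_preimage hK.nullMeasurableSet
  have himg : crd n '' K = WithLp.toLp 2 ⁻¹' K := by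
    ext x
    constructor
    · rintro ⟨y, hy, rfl⟩
      exact hy
    · intro hx
      exact ⟨WithLp.toLp 2 x, hx, rfl⟩
  unfold vol evol
  rw [himg, h]

theorem evol_pos {K : Set (EV n)} (hK : SymConvexBody K) : 0 < evol K := by
  apply ENNReal.toReal_pos
  · exact (Measure.measure_pos_of_nonempty_interior _ hK.nonempty_interior).ne'
  · exact hK.isCompact.measure_lt_top.ne

theorem evol_mono {A B : Set (EV n)} (hB : IsCompact B) (h : A ⊆ B) : evol A ≤ evol B :=
  ENNReal.toReal_mono hB.measure_lt_top.ne (measure_mono h)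

theorem evol_smul (M : Set (EV n)) {r : ℝ} (hr : 0 ≤ r) : evol (r • M) = r ^ n * evol M := by
  unfold evol
  rw [Measure.addHaar_smul, ENNReal.toReal_mul, ENNReal.toReal_ofReal (abs_nonneg _),
    abs_of_nonneg (by positivity)]
  simp

theorem SymConvexBody.scb {K : Set (EV n)} (hK : SymConvexBody K) : SCB (crd n '' K) where
  convex := hK.convex.linear_image (crd n).toLinearMap
  compact := hK.isCompact.image (crd n).continuous
  symm := by
    rintro _ ⟨x, hx, rfl⟩
    exact ⟨-x, hK.symm x hx, by simp⟩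
  int := by
    obtain ⟨x, hx⟩ := hK.nonempty_interior
    refine ⟨crd n x, ?_⟩
    rw [mem_interior]
    exact ⟨crd n '' interior K, image_mono interior_subset,
      (crd n).toHomeomorph.isOpenMap _ isOpen_interior, ⟨x, hx, rfl⟩⟩

theorem exists_riesz (f : (Fin n → ℝ) →ₗ[ℝ] ℝ) :
    ∃ u : EV n, ∀ x : EV n, f (crd n x) = inner ℝ x u := by
  set g : EV n →L[ℝ] ℝ := (LinearMap.toContinuousLinearMap f).comp
    ((crd n : EV n →L[ℝ] (Fin n → ℝ))) with hg
  refine ⟨(InnerProductSpace.toDual ℝ (EV n)).symm g, fun x => ?_⟩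
  rw [real_inner_comm, InnerProductSpace.toDual_symm_apply]
  rfl

theorem hs_crd (K : Set (EV n)) (f : (Fin n → ℝ) →ₗ[ℝ] ℝ) {u : EV n}
    (hu : ∀ x : EV n, f (crd n x) = inner ℝ x u) : hs (crd n '' K) f = supportFn K u := by
  unfold hs supportFn
  rw [image_image]
  congr 1
  apply image_congr
  intro x _
  exact hu x

theorem Zon_crd {N : ℕ} (v : Fin N → EV n) : crd n '' (Zon v) = Zon (fun j => crd n (v j)) :=
  Zon_image (crd n).toLinearMap v

theorem supportFn_Zon {N : ℕ} (v : Fin N → EV n) (u : EV n) :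
    supportFn (Zon v) u = ∑ j, |inner ℝ (v j) u| := by
  apply le_antisymm
  · apply supportFn_le ⟨0, zero_mem_Zon v⟩
    rintro _ ⟨c, hc, rfl⟩
    rw [sum_inner]
    apply Finset.sum_le_sum
    intro j _
    rw [real_inner_smul_left]
    calc c j * inner ℝ (v j) u ≤ |c j * inner ℝ (v j) u| := le_abs_self _
      _ = |c j| * |inner ℝ (v j) u| := abs_mul _ _
      _ ≤ 1 * |inner ℝ (v j) u| := mul_le_mul_of_nonneg_right (hc j) (abs_nonneg _)
      _ = _ := one_mul _
  · have hmem : (∑ j, ((SignType.sign (inner ℝ (v j) u : ℝ) : SignType) : ℝ) • v j) ∈ Zon v := by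
      refine ⟨_, fun j => ?_, rfl⟩
      rcases lt_trichotomy (inner ℝ (v j) u : ℝ) 0 with h | h | h
      · simp [sign_neg h]
      · simp [h]
      · simp [sign_pos h]
    have := inner_le_supportFn (Zon_isCompact v) hmem u
    rw [sum_inner] at this
    refine le_trans (le_of_eq ?_) this
    apply Finset.sum_congr rfl
    intro j _
    rw [real_inner_smul_left, sign_mul_self]

/-- Lemma Z for centred zonotopes in Euclidean space, log form -/
theorem lemmaZ_ev (hn : 0 < n) {s t : ℝ} (hs0 : 0 < s) (ht0 : 0 < t) (hst : s + t = 1)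
    {N : ℕ} (v : Fin N → EV n) {K L : Set (EV n)} (hK : SymConvexBody K) (hL : SymConvexBody L)
    (hZ : 0 < evol (Zon v))
    (h : ∀ u : EV n, ‖u‖ = 1 →
      s * Real.log (supportFn K u) + t * Real.log (supportFn L u) ≤
        Real.log (supportFn (Zon v) u)) :
    s * Real.log (evol K) + t * Real.log (evol L) ≤ Real.log (evol (Zon v)) := by
  obtain ⟨m, rfl⟩ : ∃ m, n = m + 1 := ⟨n - 1, by omega⟩
  have hZc : IsCompact (Zon v) := Zon_isCompact v
  have hZi : (interior (crd (m + 1) '' Zon v)).Nonempty := by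
    rw [Zon_crd]
    apply interior_of_vol_pos (Zon_isCompact _) (Zon_convex _)
    rw [← Zon_crd, vol_crd hZc.measurableSet]
    exact hZ
  have hZpos : ∀ u : EV (m + 1), ‖u‖ = 1 → 0 < supportFn (Zon v) u := by
    intro u hu
    have hsym : SymConvexBody (Zon v) := by
      refine ⟨Zon_convex v, hZc, ?_, fun x hx => Zon_neg v hx⟩
      obtain ⟨x, hx⟩ := hZi
      have h1 := (crd (m + 1)).symm.toHomeomorph.isOpenMap _ (isOpen_interior
        (s := crd (m + 1) '' Zon v))
      refine ⟨(crd (m + 1)).symm x, ?_⟩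
      rw [mem_interior]
      refine ⟨_, ?_, h1, ⟨x, hx, rfl⟩⟩
      rintro _ ⟨y, hy, rfl⟩
      obtain ⟨z, hz, rfl⟩ := interior_subset hy
      simpa using hz
    apply hsym.supportFn_pos
    intro h0
    rw [h0] at hu
    simp at hu
  have key := lemmaZ hs0 ht0 hst m N (fun j => crd (m + 1) (v j)) (crd (m + 1) '' K)
    (crd (m + 1) '' L) hK.scb hL.scb (by
      intro f
      obtain ⟨u, hu⟩ := exists_riesz f
      rw [hs_crd K f hu, hs_crd L f hu]
      have e : ∑ j, |f (crd (m + 1) (v j))| = supportFn (Zon v) u := by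
        rw [supportFn_Zon]
        apply Finset.sum_congr rfl
        intro j _
        rw [hu]
      rw [e]
      by_cases hu0 : u = 0
      · subst hu0
        rw [supportFn_zero hK.isCompact ⟨0, hK.zero_mem⟩, Real.zero_rpow hs0.ne', zero_mul]
        rw [supportFn_zero hZc ⟨0, zero_mem_Zon v⟩]
      · have hnu : 0 < ‖u‖ := norm_pos_iff.2 hu0
        set w := ‖u‖⁻¹ • u with hw
        have hw1 : ‖w‖ = 1 := by rw [hw, norm_smul, norm_inv, norm_norm]; field_simp
        have hw0 : w ≠ 0 := by intro h0; rw [h0] at hw1; simp at hw1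
        have hwu : u = ‖u‖ • w := by rw [hw, smul_smul, mul_inv_cancel₀ hnu.ne', one_smul]
        have hKw := hK.supportFn_pos hw0
        have hLw := hL.supportFn_pos hw0
        have hZw := hZpos w hw1
        rw [hwu, supportFn_smul hK.isCompact ⟨0, hK.zero_mem⟩ hnu.le,
          supportFn_smul hL.isCompact ⟨0, hL.zero_mem⟩ hnu.le,
          supportFn_smul hZc ⟨0, zero_mem_Zon v⟩ hnu.le,
          Real.mul_rpow hnu.le hKw.le, Real.mul_rpow hnu.le hLw.le]
        have h1 : supportFn K w ^ s * supportFn L w ^ t ≤ supportFn (Zon v) w := by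
          rw [← Real.log_le_log_iff (by positivity) hZw, Real.log_mul (by positivity)
            (by positivity), Real.log_rpow hKw, Real.log_rpow hLw]
          exact h w hw1
        calc ‖u‖ ^ s * supportFn K w ^ s * (‖u‖ ^ t * supportFn L w ^ t)
            = (‖u‖ ^ s * ‖u‖ ^ t) * (supportFn K w ^ s * supportFn L w ^ t) := by ring
          _ = ‖u‖ * (supportFn K w ^ s * supportFn L w ^ t) := by
              rw [← Real.rpow_add hnu, hst, Real.rpow_one]
          _ ≤ ‖u‖ * supportFn (Zon v) w := by gcongr)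
    (by rw [← Zon_crd, vol_crd hZc.measurableSet]; exact hZ)
  rw [← Zon_crd, vol_crd hZc.measurableSet, vol_crd hK.isCompact.measurableSet,
    vol_crd hL.isCompact.measurableSet] at key
  exact key

end Vale.Agent.P227
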