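import Vale.Agent.P227.LogMinkMain

open MeasureTheory Set Metric Filter Topology
open scoped ENNReal NNReal Pointwise

namespace Vale.Agent.P227

variable {n : ℕ}

/-- facts on the log combination -/
theorem logComb_facts (hn : 0 < n) {K L : Set (EV n)} (hK : SymConvexBody K)
    (hL : SymConvexBody L) {t : ℝ} (ht0 : 0 ≤ t) (ht1 : t ≤ 1) :
    SymConvexBody (logComb t K L) ∧
    (∀ x : EV n, x ≠ 0 → ∃ u : EV n, ‖u‖ = 1 ∧
      inner ℝ x u = gauge (logComb t K L) x * supportFn (logComb t K L) u ∧
      (1 - t) * Real.log (supportFn K u) + t * Real.log (supportFn L u) =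
        Real.log (supportFn (logComb t K L) u)) := by
  set f : EV n → ℝ := fun u => supportFn K u ^ (1 - t) * supportFn L u ^ t with hf
  have h1t : 0 ≤ 1 - t := by linarith
  have hcont : ContinuousOn f (sphere 0 1) := by
    apply ContinuousOn.mul
    · exact hK.continuous_supportFn.continuousOn.rpow_const fun u hu => Or.inr h1t
    · exact hL.continuous_supportFn.continuousOn.rpow_const fun u hu => Or.inr ht0
  obtain ⟨r, hr0, hr⟩ := hK.exists_ball
  obtain ⟨R, hR0, hR⟩ := hK.exists_bound
  obtain ⟨r', hr0', hr'⟩ := hL.exists_ball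
  obtain ⟨R', hR0', hR'⟩ := hL.exists_bound
  have ha : 0 < r ^ (1 - t) * r' ^ t := by positivity
  have hfa : ∀ u : EV n, ‖u‖ = 1 → r ^ (1 - t) * r' ^ t ≤ f u := by
    intro u hu
    have e1 := SymConvexBody.supportFn_ge hr0 hK.isCompact hr u
    have e2 := SymConvexBody.supportFn_ge hr0' hL.isCompact hr' u
    rw [hu, mul_one] at e1 e2
    apply mul_le_mul (Real.rpow_le_rpow hr0.le e1 h1t) (Real.rpow_le_rpow hr0'.le e2 ht0)
      (by positivity) (Real.rpow_nonneg (hK.supportFn_nonneg u) _)
  have hfb : ∀ u : EV n, ‖u‖ = 1 → f u ≤ R ^ (1 - t) * R' ^ t := by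
    intro u hu
    have e1 := hK.supportFn_le_norm hR u
    have e2 := hL.supportFn_le_norm hR' u
    rw [hu, mul_one] at e1 e2
    apply mul_le_mul (Real.rpow_le_rpow (hK.supportFn_nonneg u) e1 h1t)
      (Real.rpow_le_rpow (hL.supportFn_nonneg u) e2 ht0)
      (Real.rpow_nonneg (hL.supportFn_nonneg u) _) (by positivity)
  have heven : ∀ u, f (-u) = f u := by
    intro u
    simp only [hf, hK.supportFn_neg, hL.supportFn_neg]
  have hW : SymConvexBody (logComb t K L) := wulff_symConvexBody ha hfa hfb heven
  refine ⟨hW, fun x hx => ?_⟩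
  obtain ⟨_, u, hu, hxu⟩ := gauge_wulff_attained hn hcont ha hfa hfb heven x
  change inner ℝ x u = gauge (logComb t K L) x * f u at hxu
  have hg := hW.gauge_pos hx
  have hu0 := ne_zero_of_norm_one hu
  have h1 : supportFn (logComb t K L) u ≤ f u :=
    supportFn_le ⟨0, hW.zero_mem⟩ fun y hy => hy u hu
  have h2 := (hW.exists_normal hn x).1 u hu
  rw [hxu] at h2
  have h3 : f u ≤ supportFn (logComb t K L) u := le_of_mul_le_mul_left h2 hg
  have h4 : f u = supportFn (logComb t K L) u := le_antisymm h3 h1
  refine ⟨u, hu, by rw [hxu, h4], ?_⟩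
  rw [← h4]
  have pK := hK.supportFn_pos hu0
  have pL := hL.supportFn_pos hu0
  simp only [hf]
  rw [Real.log_mul (by positivity) (by positivity), Real.log_rpow pK, Real.log_rpow pL]

/-- log-Brunn-Minkowski from log-Minkowski at the log combination -/
theorem log_bm_of_log_minkowski (hn : 0 < n) {K L : Set (EV n)} (hK : SymConvexBody K)
    (hL : SymConvexBody L) {t : ℝ} (ht0 : 0 ≤ t) (ht1 : t ≤ 1)
    (hlm : ∀ (M : Set (EV n)), SymConvexBody M → ∀ ν : EV n → EV n,
      (∀ᵐ x ∂(volume.restrict (logComb t K L)), ‖ν x‖ = 1 ∧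
        inner ℝ x (ν x) = gauge (logComb t K L) x * supportFn (logComb t K L) (ν x)) →
      evol (logComb t K L) / n * Real.log (evol M / evol (logComb t K L)) ≤
        ∫ x in (logComb t K L),
          Real.log (supportFn M (ν x) / supportFn (logComb t K L) (ν x))) :
    evol K ^ (1 - t) * evol L ^ t ≤ evol (logComb t K L) := by
  obtain ⟨hW, hnorm⟩ := logComb_facts hn hK hL ht0 ht1
  set W := logComb t K L with hWdef
  have hKpos := evol_pos hK
  have hLpos := evol_pos hL
  have hWpos := evol_pos hW
  choose ν hν using fun x => (hW.exists_normal hn x).2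
  have hν' : ∀ᵐ x ∂(volume.restrict W), ‖ν x‖ = 1 ∧
      inner ℝ x (ν x) = gauge W x * supportFn W (ν x) := Filter.Eventually.of_forall hν
  have hne0 : ∀ᵐ x ∂(volume.restrict W), x ≠ 0 := by
    have : Nontrivial (EV n) := by
      have : 0 < Module.finrank ℝ (EV n) := by rw [finrank_euclideanSpace_fin]; exact hn
      exact Module.nontrivial_of_finrank_pos this
    apply ae_restrict_of_ae
    rw [ae_iff]
    simp
  have hzero : ∀ᵐ x ∂(volume.restrict W),
      (1 - t) * Real.log (supportFn K (ν x) / supportFn W (ν x)) +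
        t * Real.log (supportFn L (ν x) / supportFn W (ν x)) = 0 := by
    filter_upwards [hne0, ae_restrict_of_ae hW.ae_differentiable] with x hx hd
    obtain ⟨u, hu, hxu, hlog⟩ := hnorm x hx
    have huv : u = ν x := hW.normal_unique hn hd hu (hν x).1 hxu (hν x).2
    rw [huv] at hlog
    have hu0 := ne_zero_of_norm_one (hν x).1
    rw [Real.log_div (hK.supportFn_pos hu0).ne' (hW.supportFn_pos hu0).ne',
      Real.log_div (hL.supportFn_pos hu0).ne' (hW.supportFn_pos hu0).ne']
    linarith
  have h1 := hlm K hK ν hν'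
  have h2 := hlm L hL ν hν'
  set A := ∫ x in W, Real.log (supportFn K (ν x) / supportFn W (ν x)) with hA
  set B := ∫ x in W, Real.log (supportFn L (ν x) / supportFn W (ν x)) with hB
  have hAB : (1 - t) * A + t * B = 0 := by
    rcases ht0.eq_or_lt with h0 | h0
    · subst h0
      have : A = 0 := by
        rw [hA]
        apply integral_eq_zero_of_ae
        filter_upwards [hzero] with x hx
        simpa using hx
      rw [this]; simp
    · have : B = (-(1 - t) / t) * A := by
        rw [hA, hB, ← integral_const_mul]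
        apply integral_congr_ae
        filter_upwards [hzero] with x hx
        field_simp
        linarith
      rw [this]
      field_simp
      ring
  have hn' : (0 : ℝ) < n := by exact_mod_cast hn
  have h3 : evol W / n * ((1 - t) * Real.log (evol K / evol W) +
      t * Real.log (evol L / evol W)) ≤ 0 := by
    have e1 := mul_le_mul_of_nonneg_left h1 (by linarith : 0 ≤ 1 - t)
    have e2 := mul_le_mul_of_nonneg_left h2 ht0
    linarith
  have h4 : (1 - t) * Real.log (evol K / evol W) + t * Real.log (evol L / evol W) ≤ 0 := by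
    have hp : 0 < evol W / n := by positivity
    exact (mul_nonpos_iff_pos_imp_nonpos.1 h3).1 hp
  rw [Real.log_div hKpos.ne' hWpos.ne', Real.log_div hLpos.ne' hWpos.ne'] at h4
  rw [← Real.log_le_log_iff (by positivity) hWpos, Real.log_mul (by positivity) (by positivity),
    Real.log_rpow hKpos, Real.log_rpow hLpos]
  linarith

/-- log-Brunn-Minkowski when the log combination is a zonoid -/
theorem log_bm_zonoid {K L : Set (EV n)} (hK : SymConvexBody K)
    (hL : SymConvexBody L) {t : ℝ} (ht0 : 0 ≤ t) (ht1 : t ≤ 1)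
    (hz : IsZonoid (logComb t K L)) :
    evol K ^ (1 - t) * evol L ^ t ≤ evol (logComb t K L) := by
  rcases Nat.eq_zero_or_pos n with h0 | hn
  · subst h0
    have huniv : ∀ S : Set (EV 0), S.Nonempty → S = univ := by
      intro S hS
      obtain ⟨x, hx⟩ := hS
      ext y
      simp only [mem_univ, iff_true]
      rwa [Subsingleton.elim y x]
    have h1 : logComb t K L = univ := by
      apply huniv
      refine ⟨0, fun u hu => ?_⟩
      rw [Subsingleton.elim u 0] at hu
      simp at hu
    have hpos : 0 < evol (univ : Set (EV 0)) := by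
      have := evol_pos hK
      rwa [huniv K ⟨0, hK.zero_mem⟩] at this
    rw [h1, huniv K ⟨0, hK.zero_mem⟩, huniv L ⟨0, hL.zero_mem⟩, ← Real.rpow_add hpos]
    simp
  · obtain ⟨hW, _⟩ := logComb_facts hn hK hL ht0 ht1
    apply log_bm_of_log_minkowski hn hK hL ht0 ht1
    intro M hM ν hν
    exact log_minkowski_zonoid hn hW hz hM ν hν

/-- a measurable outer unit normal exists -/
theorem exists_measurable_normal (hn : 0 < n) {K : Set (EV n)} (hK : SymConvexBody K) :
    ∃ ν : EV n → EV n, IsConeNormal K ν := by
  set g : EV n → EV n := fun x => (InnerProductSpace.toDual ℝ (EV n)).symm (fderiv ℝ (gauge K) x)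
    with hg
  have hgm : Measurable g := by
    apply (LinearIsometryEquiv.continuous _).measurable.comp
    exact measurable_fderiv ℝ _
  refine ⟨fun x => ‖g x‖⁻¹ • g x, (hgm.norm.inv).smul hgm, ?_⟩
  have hne0 : ∀ᵐ x ∂(volume.restrict K), x ≠ 0 := by
    have : Nontrivial (EV n) := by
      have : 0 < Module.finrank ℝ (EV n) := by rw [finrank_euclideanSpace_fin]; exact hn
      exact Module.nontrivial_of_finrank_pos this
    apply ae_restrict_of_ae
    rw [ae_iff]
    simp
  filter_upwards [hne0, ae_restrict_of_ae hK.ae_differentiable] with x hx hd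
  obtain ⟨_, u, hu, hxu⟩ := hK.exists_normal hn x
  have hpu := hK.supportFn_pos (ne_zero_of_norm_one hu)
  have hgu : g x = (supportFn K u)⁻¹ • u := by
    apply ext_inner_left ℝ
    intro y
    rw [real_inner_comm, hg]
    simp only
    rw [InnerProductSpace.toDual_symm_apply, inner_smul_right]
    exact hK.fderiv_gauge hn hd hu hxu y
  have : ‖g x‖⁻¹ • g x = u := by
    rw [hgu, norm_smul, hu, mul_one, Real.norm_of_nonneg (by positivity), smul_smul, inv_inv,
      mul_inv_cancel₀ hpu.ne', one_smul]
  rw [this]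
  exact ⟨hu, hxu⟩

end Vale.Agent.P227
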