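import Mathlib

open MeasureTheory Set Metric
open scoped ENNReal NNReal Pointwise

namespace Vale.Agent.P227

variable {E : Type*} [NormedAddCommGroup E] [NormedSpace ℝ E] [MeasurableSpace E]
  [Nontrivial E] (μ : Measure E) [FiniteDimensional ℝ E] [BorelSpace E] [μ.IsAddHaarMeasure]

theorem polar_lintegral (F : E → ℝ≥0∞) (hF : Measurable F) :
    ∫⁻ x, F x ∂μ = ∫⁻ θ : sphere (0 : E) 1, ∫⁻ r : Ioi (0 : ℝ), F (r.1 • θ.1)
      ∂(Measure.volumeIoiPow (Module.finrank ℝ E - 1)) ∂μ.toSphere := by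
  calc ∫⁻ x, F x ∂μ = ∫⁻ x : ({(0)}ᶜ : Set E), F x.1 ∂(μ.comap (↑)) := by
        rw [lintegral_subtype_comap (measurableSet_singleton _).compl fun x ↦ F x,
          restrict_compl_singleton]
    _ = ∫⁻ p, F (((homeomorphUnitSphereProd E).symm p : ({(0)}ᶜ : Set E)) : E)
          ∂μ.toSphere.prod (.volumeIoiPow (Module.finrank ℝ E - 1)) := by
        rw [← μ.measurePreserving_homeomorphUnitSphereProd.lintegral_comp_emb
          (Homeomorph.measurableEmbedding _)]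
        simp
    _ = _ := by
        rw [lintegral_prod]
        · simp [homeomorphUnitSphereProd_symm_apply_coe]
        · apply Measurable.aemeasurable
          exact hF.comp (measurable_subtype_coe.comp (Homeomorph.measurable _))

/-- comparison of volumes of two star bodies in terms of an integral over the first one -/
theorem star_volume (g₁ g₂ : E → ℝ) (h₁ : Continuous g₁) (h₂ : Continuous g₂)
    (hom₁ : ∀ r : ℝ, 0 < r → ∀ x, g₁ (r • x) = r * g₁ x)
    (hom₂ : ∀ r : ℝ, 0 < r → ∀ x, g₂ (r • x) = r * g₂ x)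
    (pos₁ : ∀ x, x ≠ 0 → 0 < g₁ x) (pos₂ : ∀ x, x ≠ 0 → 0 < g₂ x) :
    μ {x | g₂ x < 1} =
      ∫⁻ x in {x | g₁ x < 1}, ENNReal.ofReal ((g₁ x / g₂ x) ^ (Module.finrank ℝ E)) ∂μ := by
  set n := Module.finrank ℝ E with hn
  have hnpos : 0 < n := Module.finrank_pos
  have hcast : ((n - 1 : ℕ) : ℝ) + 1 = n := by
    rw [← Nat.cast_add_one, Nat.sub_add_cancel hnpos]
  have m1 : MeasurableSet {x | g₁ x < 1} := (isOpen_lt h₁ continuous_const).measurableSet
  have m2 : MeasurableSet {x | g₂ x < 1} := (isOpen_lt h₂ continuous_const).measurableSet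
  have hq : Measurable fun x => ENNReal.ofReal ((g₁ x / g₂ x) ^ n) := by
    apply Measurable.ennreal_ofReal
    exact (h₁.measurable.div h₂.measurable).pow_const _
  rw [← lintegral_indicator_one m2, ← lintegral_indicator m1,
    polar_lintegral μ _ (measurable_one.indicator m2), polar_lintegral μ _ (hq.indicator m1)]
  apply lintegral_congr
  intro θ
  have hθ : (θ : E) ≠ 0 := by
    intro h
    have := θ.2
    rw [h] at this
    simp at this
  have p1 := pos₁ _ hθ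
  have p2 := pos₂ _ hθ
  have hset : ∀ (g : E → ℝ) (hom : ∀ r : ℝ, 0 < r → ∀ x, g (r • x) = r * g x)
      (hp : 0 < g θ), ∀ r : Ioi (0 : ℝ), (r.1 • (θ : E) ∈ {x | g x < 1} ↔
        r ∈ Iio (⟨(g θ)⁻¹, mem_Ioi.2 (inv_pos.2 hp)⟩ : Ioi (0 : ℝ))) := by
    intro g hom hp r
    simp only [mem_ofPred_eq, mem_Iio, ← Subtype.coe_lt_coe]
    rw [hom _ r.2, lt_inv_comm₀ r.2 hp, ← lt_div_iff₀' r.2, one_div]
  have e2 : ∀ r : Ioi (0 : ℝ), ({x | g₂ x < 1}.indicator 1 (r.1 • (θ : E)) : ℝ≥0∞) =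
      (Iio (⟨(g₂ θ)⁻¹, mem_Ioi.2 (inv_pos.2 p2)⟩ : Ioi (0 : ℝ))).indicator 1 r := by
    intro r
    by_cases hr : r.1 • (θ : E) ∈ {x | g₂ x < 1}
    · rw [indicator_of_mem hr, indicator_of_mem ((hset g₂ hom₂ p2 r).1 hr)]; simp
    · rw [indicator_of_notMem hr, indicator_of_notMem (fun h => hr ((hset g₂ hom₂ p2 r).2 h))]
  have e1 : ∀ r : Ioi (0 : ℝ), ({x | g₁ x < 1}.indicator
        (fun x => ENNReal.ofReal ((g₁ x / g₂ x) ^ n)) (r.1 • (θ : E)) : ℝ≥0∞) =
      (Iio (⟨(g₁ θ)⁻¹, mem_Ioi.2 (inv_pos.2 p1)⟩ : Ioi (0 : ℝ))).indicator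
        (fun _ => ENNReal.ofReal ((g₁ θ / g₂ θ) ^ n)) r := by
    intro r
    by_cases hr : r.1 • (θ : E) ∈ {x | g₁ x < 1}
    · rw [indicator_of_mem hr, indicator_of_mem ((hset g₁ hom₁ p1 r).1 hr), hom₁ _ r.2,
        hom₂ _ r.2, mul_div_mul_left _ _ (ne_of_gt r.2)]
    · rw [indicator_of_notMem hr, indicator_of_notMem (fun h => hr ((hset g₁ hom₁ p1 r).2 h))]
  simp_rw [e1, e2]
  rw [lintegral_indicator_one measurableSet_Iio, lintegral_indicator measurableSet_Iio,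
    setLIntegral_const, Measure.volumeIoiPow_apply_Iio, Measure.volumeIoiPow_apply_Iio,
    ← ENNReal.ofReal_mul (by positivity), Nat.sub_add_cancel hnpos, hcast]
  congr 1
  simp only [inv_pow, div_pow]
  have : g₁ ↑θ ^ n ≠ 0 := by positivity
  field_simp

end Vale.Agent.P227
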