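import Vale.Agent.P227.Body
import Vale.Agent.P227.Polar

open MeasureTheory Set Metric Filter Topology
open scoped ENNReal NNReal Pointwise

namespace Vale.Agent.P227

variable {n : ℕ}

theorem SymConvexBody.gauge_pos {K : Set (EV n)} (hK : SymConvexBody K) {x : EV n}
    (hx : x ≠ 0) : 0 < gauge K x := by
  rw [_root_.gauge_pos (absorbent_nhds_zero hK.nhds)]
  · exact hx
  · exact (NormedSpace.isVonNBounded_iff ℝ).2 hK.isCompact.isBounded

theorem SymConvexBody.continuous_gauge {K : Set (EV n)} (hK : SymConvexBody K) :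
    Continuous (gauge K) := _root_.continuous_gauge hK.convex hK.nhds

/-- every nonzero point has a unit outer normal -/
theorem SymConvexBody.exists_normal {K : Set (EV n)} (hK : SymConvexBody K) (hn : 0 < n)
    (x : EV n) : (∀ u : EV n, ‖u‖ = 1 → inner ℝ x u ≤ gauge K x * supportFn K u) ∧
      ∃ u : EV n, ‖u‖ = 1 ∧ inner ℝ x u = gauge K x * supportFn K u := by
  obtain ⟨r, hr0, hr⟩ := hK.exists_ball
  obtain ⟨R, hR0, hR⟩ := hK.exists_bound
  have h := gauge_wulff_attained hn hK.continuous_supportFn.continuousOn hr0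
    (fun u hu => by
      have := SymConvexBody.supportFn_ge hr0 hK.isCompact hr u
      rwa [hu, mul_one] at this)
    (b := R) (fun u hu => by
      have := hK.supportFn_le_norm hR u
      rwa [hu, mul_one] at this)
    hK.supportFn_neg x
  rwa [hK.wulff_supportFn] at h

/-- gradient of the gauge in terms of the normal -/
theorem SymConvexBody.fderiv_gauge {K : Set (EV n)} (hK : SymConvexBody K) (hn : 0 < n)
    {x : EV n} (hd : DifferentiableAt ℝ (gauge K) x) {w : EV n} (hw : ‖w‖ = 1)
    (hxw : inner ℝ x w = gauge K x * supportFn K w) (y : EV n) :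
    fderiv ℝ (gauge K) x y = (supportFn K w)⁻¹ * inner ℝ y w := by
  have hw0 : w ≠ 0 := by
    intro h; rw [h] at hw; simp at hw
  have hpos := hK.supportFn_pos hw0
  set ℓ : EV n →L[ℝ] ℝ := (supportFn K w)⁻¹ • (innerSL ℝ w) with hℓ
  have hℓa : ∀ y, ℓ y = (supportFn K w)⁻¹ * inner ℝ y w := by
    intro y
    rw [hℓ]
    simp [real_inner_comm]
  have hmin : IsLocalMin (fun y => gauge K y - ℓ y) x := by
    apply Filter.Eventually.of_forall
    intro y
    simp only
    have h1 := (hK.exists_normal hn y).1 w hw
    rw [hℓa, hℓa, hxw]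
    have e1 : (supportFn K w)⁻¹ * (gauge K x * supportFn K w) = gauge K x := by
      field_simp
    have e2 : (supportFn K w)⁻¹ * inner ℝ y w ≤ gauge K y := by
      rw [inv_mul_le_iff₀ hpos, mul_comm]
      exact h1
    rw [e1]
    linarith
  have hder := hmin.fderiv_eq_zero
  have hsub : fderiv ℝ (fun y => gauge K y - ℓ y) x = fderiv ℝ (gauge K) x - ℓ := by
    have := fderiv_sub hd ℓ.differentiableAt (x := x)
    rw [ℓ.fderiv] at this
    exact this
  rw [hsub, sub_eq_zero] at hder
  rw [hder, hℓa]

/-- at a point where the gauge is differentiable the unit normal is unique -/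
theorem SymConvexBody.normal_unique {K : Set (EV n)} (hK : SymConvexBody K) (hn : 0 < n)
    {x : EV n} (hd : DifferentiableAt ℝ (gauge K) x) {u v : EV n} (hu : ‖u‖ = 1)
    (hv : ‖v‖ = 1) (hxu : inner ℝ x u = gauge K x * supportFn K u)
    (hxv : inner ℝ x v = gauge K x * supportFn K v) : u = v := by
  have h1 := hK.fderiv_gauge hn hd hu hxu
  have h2 := hK.fderiv_gauge hn hd hv hxv
  have hu0 : u ≠ 0 := by
    intro h; rw [h] at hu; simp at hu
  have hv0 : v ≠ 0 := by
    intro h; rw [h] at hv; simp at hv
  have pu := hK.supportFn_pos hu0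
  have pv := hK.supportFn_pos hv0
  have h3 : (supportFn K u)⁻¹ • u = (supportFn K v)⁻¹ • v := by
    apply ext_inner_left ℝ
    intro y
    rw [inner_smul_right, inner_smul_right, ← h1 y, ← h2 y]
  have h4 : (supportFn K u)⁻¹ = (supportFn K v)⁻¹ := by
    have := congrArg norm h3
    rw [norm_smul, norm_smul, hu, hv, mul_one, mul_one, Real.norm_of_nonneg (by positivity),
      Real.norm_of_nonneg (by positivity)] at this
    exact this
  rw [h4] at h3
  exact smul_right_injective _ (by positivity) h3

theorem SymConvexBody.ae_differentiable {K : Set (EV n)} (hK : SymConvexBody K) :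
    ∀ᵐ x : EV n, DifferentiableAt ℝ (gauge K) x := by
  obtain ⟨r, hr0, hr⟩ := hK.exists_ball
  have hlip : LipschitzWith (r⁻¹).toNNReal (gauge K) := by
    apply LipschitzWith.of_le_add_mul
    intro x y
    have h1 := gauge_add_le hK.convex (absorbent_nhds_zero hK.nhds) y (x - y)
    have h2 : y + (x - y) = x := by abel
    rw [h2] at h1
    have h3 : gauge K (x - y) ≤ r⁻¹ * dist x y := by
      rw [dist_eq_norm]
      have := gauge_mono (absorbent_nhds_zero (closedBall_mem_nhds (0 : EV n) hr0)) hr (x - y)
      refine this.trans ?_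
      rw [gauge_closedBall hr0.le]
      rw [div_eq_inv_mul]
    rw [Real.coe_toNNReal _ (by positivity)]
    linarith
  exact hlip.ae_differentiableAt

end Vale.Agent.P227
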