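import Vale.Agent.P227.ZonoidLim

open MeasureTheory Set Metric Filter Topology
open scoped ENNReal NNReal Pointwise

namespace Vale.Agent.P227

variable {n : ℕ}

theorem ne_zero_of_norm_one {u : EV n} (hu : ‖u‖ = 1) : u ≠ 0 := by
  intro h; rw [h] at hu; simp at hu

/-- log of the ratio of support functions -/
noncomputable def lratio (K L : Set (EV n)) (u : EV n) : ℝ :=
  Real.log (supportFn L u) - Real.log (supportFn K u)

theorem lratio_continuousOn {K L : Set (EV n)} (hK : SymConvexBody K) (hL : SymConvexBody L) :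
    ContinuousOn (lratio K L) (sphere 0 1) := by
  apply ContinuousOn.sub
  · apply ContinuousOn.log hL.continuous_supportFn.continuousOn
    intro u hu
    exact (hL.supportFn_pos (ne_zero_of_norm_one (mem_sphere_zero_iff_norm.1 hu))).ne'
  · apply ContinuousOn.log hK.continuous_supportFn.continuousOn
    intro u hu
    exact (hK.supportFn_pos (ne_zero_of_norm_one (mem_sphere_zero_iff_norm.1 hu))).ne'

theorem lratio_bound {K L : Set (EV n)} (hK : SymConvexBody K) (hL : SymConvexBody L) :
    ∃ B : ℝ, 0 ≤ B ∧ ∀ u : EV n, ‖u‖ = 1 → |lratio K L u| ≤ B := by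
  obtain ⟨B, hB⟩ := (isCompact_sphere (0 : EV n) 1).exists_bound_of_continuousOn
    (lratio_continuousOn hK hL)
  refine ⟨max B 0, le_max_right _ _, fun u hu => ?_⟩
  have := hB u (mem_sphere_zero_iff_norm.2 hu)
  rw [Real.norm_eq_abs] at this
  exact this.trans (le_max_left _ _)

/-- the perturbed function `h_K exp(-ε log(h_L/h_K))` -/
noncomputable def pert (K L : Set (EV n)) (ε : ℝ) (u : EV n) : ℝ :=
  supportFn K u * Real.exp (-(ε * lratio K L u))

theorem pert_facts {K L : Set (EV n)} (hK : SymConvexBody K) (hL : SymConvexBody L) (ε : ℝ) :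
    ∃ a b : ℝ, 0 < a ∧ (∀ u, ‖u‖ = 1 → a ≤ pert K L ε u) ∧ (∀ u, ‖u‖ = 1 → pert K L ε u ≤ b) ∧
      (∀ u, pert K L ε (-u) = pert K L ε u) ∧ ContinuousOn (pert K L ε) (sphere 0 1) := by
  have hcont : ContinuousOn (pert K L ε) (sphere 0 1) := by
    apply ContinuousOn.mul hK.continuous_supportFn.continuousOn
    apply Real.continuous_exp.comp_continuousOn
    exact (continuousOn_const.mul (lratio_continuousOn hK hL)).neg
  obtain ⟨r, hr0, hr⟩ := hK.exists_ball
  obtain ⟨R, hR0, hR⟩ := hK.exists_bound
  obtain ⟨B, hB0, hB⟩ := lratio_bound hK hL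
  have hexp : ∀ u : EV n, ‖u‖ = 1 → |ε * lratio K L u| ≤ |ε| * B := by
    intro u hu
    rw [abs_mul]
    exact mul_le_mul_of_nonneg_left (hB u hu) (abs_nonneg _)
  refine ⟨r * Real.exp (-(|ε| * B)), R * Real.exp (|ε| * B), by positivity, ?_, ?_, ?_, hcont⟩
  · intro u hu
    have h1 := SymConvexBody.supportFn_ge hr0 hK.isCompact hr u
    rw [hu, mul_one] at h1
    apply mul_le_mul h1 _ (Real.exp_pos _).le (by linarith)
    apply Real.exp_le_exp.2
    have := (abs_le.1 (hexp u hu)).2
    linarith
  · intro u hu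
    have h1 := hK.supportFn_le_norm hR u
    rw [hu, mul_one] at h1
    apply mul_le_mul h1 _ (Real.exp_pos _).le hR0.le
    apply Real.exp_le_exp.2
    have := (abs_le.1 (hexp u hu)).1
    linarith
  · intro u
    unfold pert lratio
    rw [hK.supportFn_neg, hL.supportFn_neg]

/-- the perturbed Wulff body -/
noncomputable def pbody (K L : Set (EV n)) (ε : ℝ) : Set (EV n) := wulff (pert K L ε)

theorem pbody_scb {K L : Set (EV n)} (hK : SymConvexBody K) (hL : SymConvexBody L) (ε : ℝ) :
    SymConvexBody (pbody K L ε) := by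
  obtain ⟨a, b, ha, h1, h2, h3, h4⟩ := pert_facts hK hL ε
  exact wulff_symConvexBody ha h1 h2 h3

/-- two-sided bound for the logarithmic derivative of the gauge -/
theorem pbody_gauge (hn : 0 < n) {K L : Set (EV n)} (hK : SymConvexBody K)
    (hL : SymConvexBody L) (ε : ℝ) {x : EV n} (hx : x ≠ 0) :
    (∀ v : EV n, ‖v‖ = 1 → inner ℝ x v = gauge K x * supportFn K v →
      ε * lratio K L v ≤ Real.log (gauge (pbody K L ε) x) - Real.log (gauge K x)) ∧
    ∃ u : EV n, ‖u‖ = 1 ∧ Real.log (gauge (pbody K L ε) x) - Real.log (gauge K x) =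
      Real.log (inner ℝ x u / (gauge K x * supportFn K u)) + ε * lratio K L u ∧
      0 < inner ℝ x u ∧ inner ℝ x u ≤ gauge K x * supportFn K u := by
  obtain ⟨a, b, ha, h1, h2, h3, h4⟩ := pert_facts hK hL ε
  have hP := pbody_scb hK hL ε
  have hg := hK.gauge_pos hx
  have hgP := hP.gauge_pos hx
  obtain ⟨hle, u, hu, hxu⟩ := gauge_wulff_attained hn h4 ha h1 h2 h3 x
  change ∀ u : EV n, ‖u‖ = 1 → inner ℝ x u ≤ gauge (pbody K L ε) x * pert K L ε u at hle
  change inner ℝ x u = gauge (pbody K L ε) x * pert K L ε u at hxu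
  constructor
  · intro v hv hxv
    have hKv := hK.supportFn_pos (ne_zero_of_norm_one hv)
    have h5 := hle v hv
    rw [hxv, pert] at h5
    have h6 := Real.log_le_log (by positivity) h5
    rw [Real.log_mul hg.ne' hKv.ne', Real.log_mul hgP.ne' (by positivity),
      Real.log_mul hKv.ne' (Real.exp_pos _).ne', Real.log_exp] at h6
    linarith
  · have hKu := hK.supportFn_pos (ne_zero_of_norm_one hu)
    have hpos : 0 < inner ℝ x u := by
      rw [hxu]
      exact mul_pos hgP (lt_of_lt_of_le ha (h1 u hu))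
    refine ⟨u, hu, ?_, hpos, (hK.exists_normal hn x).1 u hu⟩
    rw [Real.log_div hpos.ne' (by positivity), hxu, pert,
      Real.log_mul hgP.ne' (by positivity), Real.log_mul hKu.ne' (Real.exp_pos _).ne',
      Real.log_exp, Real.log_mul hg.ne' hKu.ne']
    ring

/-- pointwise limit of the difference quotient at points with a unique normal -/
theorem pbody_tendsto (hn : 0 < n) {K L : Set (EV n)} (hK : SymConvexBody K)
    (hL : SymConvexBody L) {x : EV n} (hx : x ≠ 0) {v : EV n} (hv : ‖v‖ = 1)
    (hxv : inner ℝ x v = gauge K x * supportFn K v)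
    (huniq : ∀ w : EV n, ‖w‖ = 1 → inner ℝ x w = gauge K x * supportFn K w → w = v)
    (ε : ℕ → ℝ) (hε : ∀ k, 0 < ε k) (hε0 : Tendsto ε atTop (𝓝 0)) :
    Tendsto (fun k => (Real.log (gauge (pbody K L (ε k)) x) - Real.log (gauge K x)) / ε k) atTop
      (𝓝 (lratio K L v)) := by
  have hg := hK.gauge_pos hx
  obtain ⟨B, hB0, hB⟩ := lratio_bound hK hL
  choose hlow u hu heq hpos hle using fun k => pbody_gauge hn hK hL (ε k) hx
  set c : EV n → ℝ := fun w => inner ℝ x w / (gauge K x * supportFn K w) with hc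
  have hccont : ContinuousOn c (sphere 0 1) := by
    apply ContinuousOn.div (by fun_prop)
    · exact continuousOn_const.mul hK.continuous_supportFn.continuousOn
    · intro w hw
      have := hK.supportFn_pos (ne_zero_of_norm_one (mem_sphere_zero_iff_norm.1 hw))
      positivity
  have hcu_le : ∀ k, c (u k) ≤ 1 := by
    intro k
    have := hK.supportFn_pos (ne_zero_of_norm_one (hu k))
    rw [hc]
    simp only
    rw [div_le_one (by positivity)]
    exact hle k
  have hcu_pos : ∀ k, 0 < c (u k) := by
    intro k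
    have := hK.supportFn_pos (ne_zero_of_norm_one (hu k))
    have := hpos k
    simp only [hc]
    positivity
  have hcu_ge : ∀ k, Real.exp (-(2 * B * ε k)) ≤ c (u k) := by
    intro k
    rw [← Real.le_log_iff_exp_le (hcu_pos k)]
    have h1 := hlow k v hv hxv
    rw [heq k] at h1
    have h2 := (abs_le.1 (hB v hv)).1
    have h3 := (abs_le.1 (hB (u k) (hu k))).2
    have hk := hε k
    change _ ≤ Real.log (c (u k)) + _ at h1
    nlinarith
  have hcu_tendsto : Tendsto (fun k => c (u k)) atTop (𝓝 1) := by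
    apply tendsto_of_tendsto_of_tendsto_of_le_of_le _ tendsto_const_nhds hcu_ge hcu_le
    have : Tendsto (fun k => Real.exp (-(2 * B * ε k))) atTop (𝓝 (Real.exp (-(2 * B * 0)))) := by
      apply (Real.continuous_exp.tendsto _).comp
      exact (tendsto_const_nhds.mul hε0).neg
    simpa using this
  have hutend : Tendsto u atTop (𝓝 v) := by
    apply (isCompact_sphere (0 : EV n) 1).tendsto_nhds_of_unique_mapClusterPt
    · exact Filter.Eventually.of_forall fun k => mem_sphere_zero_iff_norm.2 (hu k)
    · intro w hw hclus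
      have hw1 : ‖w‖ = 1 := mem_sphere_zero_iff_norm.1 hw
      apply huniq w hw1
      have hpw := hK.supportFn_pos (ne_zero_of_norm_one hw1)
      have hcw : c w = 1 := by
        obtain ⟨φ, hφ, hφt⟩ := MapClusterPt.tendsto_subseq hclus
        have h1 : Tendsto (fun k => c (u (φ k))) atTop (𝓝 (c w)) := by
          have h2 : Tendsto (fun k => u (φ k)) atTop (𝓝[sphere 0 1] w) := by
            rw [tendsto_nhdsWithin_iff]
            exact ⟨hφt, Filter.Eventually.of_forall fun k =>
              mem_sphere_zero_iff_norm.2 (hu (φ k))⟩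
          exact (hccont w hw).tendsto.comp h2
        have h3 : Tendsto (fun k => c (u (φ k))) atTop (𝓝 1) :=
          hcu_tendsto.comp hφ.tendsto_atTop
        exact tendsto_nhds_unique h1 h3
      rw [hc] at hcw
      simp only at hcw
      rwa [div_eq_one_iff_eq (by positivity)] at hcw
  have hφtend : Tendsto (fun k => lratio K L (u k)) atTop (𝓝 (lratio K L v)) := by
    have h2 : Tendsto u atTop (𝓝[sphere 0 1] v) := by
      rw [tendsto_nhdsWithin_iff]
      exact ⟨hutend, Filter.Eventually.of_forall fun k => mem_sphere_zero_iff_norm.2 (hu k)⟩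
    exact (lratio_continuousOn hK hL v (mem_sphere_zero_iff_norm.2 hv)).tendsto.comp h2
  apply tendsto_of_tendsto_of_tendsto_of_le_of_le tendsto_const_nhds hφtend
  · intro k
    simp only
    rw [le_div_iff₀ (hε k)]
    have := hlow k v hv hxv
    linarith
  · intro k
    simp only
    rw [div_le_iff₀ (hε k), heq k]
    have h1 : Real.log (inner ℝ x (u k) / (gauge K x * supportFn K (u k))) ≤ 0 :=
      Real.log_nonpos (hcu_pos k).le (hcu_le k)
    linarith

end Vale.Agent.P227
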