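import Mathlib

open MeasureTheory Set
open scoped ENNReal NNReal Pointwise

namespace Vale.Agent.P227

/-- The centred segment `[-v, v]`. -/
def seg {E : Type*} [AddCommGroup E] [Module ℝ E] (v : E) : Set E :=
  {x | ∃ c : ℝ, |c| ≤ 1 ∧ x = c • v}

theorem seg_eq_image {E : Type*} [AddCommGroup E] [Module ℝ E] (v : E) :
    seg v = (fun c : ℝ => c • v) '' Icc (-1) 1 := by
  ext x
  constructor
  · rintro ⟨c, hc, rfl⟩
    exact ⟨c, abs_le.1 hc, rfl⟩
  · rintro ⟨c, hc, rfl⟩
    exact ⟨c, abs_le.2 hc, rfl⟩

theorem seg_isCompact {E : Type*} [AddCommGroup E] [Module ℝ E] [TopologicalSpace E]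
    [ContinuousSMul ℝ E] (v : E) : IsCompact (seg v) := by
  rw [seg_eq_image]
  exact isCompact_Icc.image (by fun_prop)

theorem seg_convex {E : Type*} [AddCommGroup E] [Module ℝ E] (v : E) : Convex ℝ (seg v) := by
  rw [seg_eq_image]
  have : (fun c : ℝ => c • v) = (LinearMap.toSpanSingleton ℝ E v) := by
    ext c; simp
  rw [this]
  exact (convex_Icc _ _).linear_image _

theorem seg_image {E F : Type*} [AddCommGroup E] [Module ℝ E] [AddCommGroup F] [Module ℝ F]
    (φ : E →ₗ[ℝ] F) (v : E) : φ '' (seg v) = seg (φ v) := by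
  ext x
  constructor
  · rintro ⟨_, ⟨c, hc, rfl⟩, rfl⟩
    exact ⟨c, hc, by simp⟩
  · rintro ⟨c, hc, rfl⟩
    exact ⟨c • v, ⟨c, hc, rfl⟩, by simp⟩

theorem vol_interval_add {I : Set ℝ} (hI : IsCompact I) (hc : Convex ℝ I) (hn : I.Nonempty)
    {ε : ℝ} (hε : 0 ≤ ε) :
    volume (I + Icc (-ε) ε) = volume I + ENNReal.ofReal (2 * ε) := by
  obtain ⟨a, haI, ha⟩ := hI.exists_isLeast hn
  obtain ⟨b, hbI, hb⟩ := hI.exists_isGreatest hn
  have hab : a ≤ b := ha hbI
  have hI' : I = Icc a b := by
    apply Subset.antisymm
    · intro x hx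
      exact ⟨ha hx, hb hx⟩
    · exact hc.ordConnected.out haI hbI
  have h2 : I + Icc (-ε) ε = Icc (a - ε) (b + ε) := by
    rw [hI', Icc_add_Icc hab (by linarith)]
    congr 1
  rw [h2, hI', Real.volume_Icc, Real.volume_Icc, ← ENNReal.ofReal_add (by linarith) (by linarith)]
  congr 1
  ring

/-- projection dropping the zeroth coordinate -/
def dropZero (n : ℕ) : (Fin (n + 1) → ℝ) →ₗ[ℝ] (Fin n → ℝ) := LinearMap.funLeft ℝ ℝ Fin.succ

theorem dropZero_surjective (n : ℕ) : Function.Surjective (dropZero n) := by
  apply LinearMap.funLeft_surjective_of_injective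
  exact Fin.succ_injective n

/-- first basis vector -/
def e0 (n : ℕ) : Fin (n + 1) → ℝ := Pi.single 0 1

theorem vol_add_seg_e0 {n : ℕ} {M : Set (Fin (n + 1) → ℝ)} (hM : IsCompact M)
    (hc : Convex ℝ M) {ε : ℝ} (hε : 0 ≤ ε) :
    volume (M + seg (ε • e0 n)) = volume M + ENNReal.ofReal (2 * ε) * volume (dropZero n '' M) := by
  set e := MeasurableEquiv.piFinSuccAbove (fun _ : Fin (n + 1) => ℝ) 0 with he
  have hvp : MeasurePreserving e volume volume :=
    volume_preserving_piFinSuccAbove (fun _ : Fin (n + 1) => ℝ) 0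
  have hesymm : ∀ (a : ℝ) (y : Fin n → ℝ), e.symm (a, y) = Fin.cons a y := by
    intro a y
    funext i
    refine Fin.cases ?_ (fun j => ?_) i
    · simp [he, MeasurableEquiv.piFinSuccAbove]
    · simp [he, MeasurableEquiv.piFinSuccAbove]
  have hslice : ∀ S : Set (Fin (n + 1) → ℝ), MeasurableSet S →
      volume S = ∫⁻ y : Fin n → ℝ, volume {a : ℝ | (Fin.cons a y : Fin (n + 1) → ℝ) ∈ S} := by
    intro S hS
    rw [← hvp.symm.measure_preimage hS.nullMeasurableSet]
    have : (volume : Measure (ℝ × (Fin n → ℝ))) = (volume : Measure ℝ).prod volume := rfl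
    rw [this, Measure.prod_apply_symm (e.symm.measurable hS)]
    apply lintegral_congr
    intro y
    congr 1
    ext a
    simp [hesymm]
  have hcont : ∀ y : Fin n → ℝ, Continuous fun a : ℝ => (Fin.cons a y : Fin (n + 1) → ℝ) := by
    intro y
    apply continuous_pi
    intro i
    refine Fin.cases ?_ (fun j => ?_) i
    · simp only [Fin.cons_zero]
      exact continuous_id
    · simp only [Fin.cons_succ]
      exact continuous_const
  have hSc : IsCompact (M + seg (ε • e0 n)) := hM.add (seg_isCompact _)
  rw [hslice _ hSc.measurableSet, hslice _ hM.measurableSet]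
  have hproj : MeasurableSet (dropZero n '' M) := by
    apply IsCompact.measurableSet
    apply hM.image
    exact LinearMap.continuous_of_finiteDimensional _
  have hfib : ∀ y : Fin n → ℝ, {a : ℝ | (Fin.cons a y : Fin (n + 1) → ℝ) ∈ M + seg (ε • e0 n)} =
      {a : ℝ | (Fin.cons a y : Fin (n + 1) → ℝ) ∈ M} + Icc (-ε) ε := by
    intro y
    ext a
    simp only [mem_ofPred_eq, mem_add]
    constructor
    · rintro ⟨x, hx, _, ⟨c, hc1, rfl⟩, hxy⟩
      refine ⟨x 0, ?_, c * ε, ?_, ?_⟩
      · have : (Fin.cons (x 0) y : Fin (n + 1) → ℝ) = x := by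
          funext i
          refine Fin.cases ?_ (fun j => ?_) i
          · simp
          · have := congrFun hxy j.succ
            simp [e0] at this
            simp [this]
        rw [this]
        exact hx
      · rw [mem_Icc, ← abs_le, abs_mul, abs_of_nonneg hε]
        exact mul_le_of_le_one_left hε hc1
      · have := congrFun hxy 0
        simp [e0] at this
        linarith
    · rintro ⟨b, hb, d, hd, rfl⟩
      refine ⟨_, hb, Fin.cons d 0, ?_, ?_⟩
      · rcases hε.eq_or_lt with h0 | h0
        · refine ⟨0, by simp, ?_⟩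
          have : d = 0 := by
            rw [← h0] at hd
            have h1 := hd.1
            have h2 := hd.2
            linarith
          subst this
          funext i
          refine Fin.cases ?_ (fun j => ?_) i <;> simp
        · refine ⟨d / ε, ?_, ?_⟩
          · rw [abs_div, abs_of_pos h0, div_le_one h0]
            exact abs_le.2 hd
          · funext i
            refine Fin.cases ?_ (fun j => ?_) i
            · simp [e0]
              field_simp
            · simp [e0]
      · funext i
        refine Fin.cases ?_ (fun j => ?_) i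
        · simp
        · simp
  have hfun : ∀ y : Fin n → ℝ,
      volume {a : ℝ | (Fin.cons a y : Fin (n + 1) → ℝ) ∈ M + seg (ε • e0 n)} =
      volume {a : ℝ | (Fin.cons a y : Fin (n + 1) → ℝ) ∈ M} +
        ENNReal.ofReal (2 * ε) * (dropZero n '' M).indicator 1 y := by
    intro y
    rw [hfib y]
    by_cases hy : y ∈ dropZero n '' M
    · have hne : {a : ℝ | (Fin.cons a y : Fin (n + 1) → ℝ) ∈ M}.Nonempty := by
        obtain ⟨x, hx, rfl⟩ := hy
        refine ⟨x 0, ?_⟩
        simp only [mem_ofPred_eq]
        convert hx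
        funext i
        refine Fin.cases ?_ (fun j => ?_) i
        · simp
        · simp [dropZero]
      have hcomp : IsCompact {a : ℝ | (Fin.cons a y : Fin (n + 1) → ℝ) ∈ M} := by
        apply IsCompact.of_isClosed_subset (hM.image (continuous_apply (0 : Fin (n + 1))))
        · exact hM.isClosed.preimage (hcont y)
        · intro a ha
          exact ⟨_, ha, by simp⟩
      have hconv : Convex ℝ {a : ℝ | (Fin.cons a y : Fin (n + 1) → ℝ) ∈ M} := by
        intro a ha b hb s t hs ht hst
        simp only [mem_ofPred_eq] at ha hb ⊢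
        convert hc ha hb hs ht hst
        funext i
        refine Fin.cases ?_ (fun j => ?_) i
        · simp
        · simp [← add_mul, hst]
      rw [vol_interval_add hcomp hconv hne hε]
      simp [indicator_of_mem hy]
    · have hempty : {a : ℝ | (Fin.cons a y : Fin (n + 1) → ℝ) ∈ M} = ∅ := by
        ext a
        simp only [mem_ofPred_eq, mem_empty_iff_false, iff_false]
        intro ha
        apply hy
        refine ⟨_, ha, ?_⟩
        funext j
        simp [dropZero]
      rw [hempty]
      simp [indicator_of_notMem hy]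
  simp_rw [hfun]
  rw [lintegral_add_right _ ((measurable_one.indicator hproj).const_mul _),
    lintegral_const_mul _ (measurable_one.indicator hproj), lintegral_indicator_one hproj]

end Vale.Agent.P227
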