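import Vale.Agent.P227.Seg

open MeasureTheory Set
open scoped ENNReal NNReal Pointwise

namespace Vale.Agent.P227

/-- real-valued volume on `Fin n → ℝ` -/
noncomputable def vol {n : ℕ} (M : Set (Fin n → ℝ)) : ℝ := (volume M).toReal

theorem e0_ne_zero (n : ℕ) : e0 n ≠ 0 := by
  intro h
  have := congrFun h 0
  simp [e0] at this

theorem seg_formula {n : ℕ} (v : Fin (n + 1) → ℝ) (hv : v ≠ 0) :
    ∃ (φ : (Fin (n + 1) → ℝ) →ₗ[ℝ] (Fin n → ℝ)) (c : ℝ), 0 < c ∧ Function.Surjective φ ∧
      ∀ M : Set (Fin (n + 1) → ℝ), IsCompact M → Convex ℝ M → ∀ ε : ℝ, 0 ≤ ε →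
        vol (M + seg (ε • v)) = vol M + ε * (c * vol (φ '' M)) := by
  obtain ⟨A, hA⟩ := SeparatingDual.exists_continuousLinearEquiv_apply_eq (R := ℝ) hv (e0_ne_zero n)
  set d : ℝ := |LinearMap.det ((A : (Fin (n + 1) → ℝ) →L[ℝ] (Fin (n + 1) → ℝ)) :
    (Fin (n + 1) → ℝ) →ₗ[ℝ] (Fin (n + 1) → ℝ))| with hd
  have hdpos : 0 < d := by
    rw [hd, abs_pos]
    have := (LinearEquiv.isUnit_det' A.toLinearEquiv).ne_zero
    exact this
  refine ⟨(dropZero n).comp (A : (Fin (n + 1) → ℝ) →ₗ[ℝ] (Fin (n + 1) → ℝ)), 2 / d,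
    by positivity, ?_, ?_⟩
  · exact (dropZero_surjective n).comp A.surjective
  · intro M hM hc ε hε
    have hAM : IsCompact (A '' M) := hM.image A.continuous
    have hAc : Convex ℝ (A '' M) := hc.linear_image A.toLinearMap
    have key := vol_add_seg_e0 hAM hAc hε
    have himg : A '' (M + seg (ε • v)) = A '' M + seg (ε • e0 n) := by
      rw [image_add]
      congr 1
      have := seg_image (A : (Fin (n + 1) → ℝ) →ₗ[ℝ] (Fin (n + 1) → ℝ)) (ε • v)
      simp only [map_smul] at this
      rw [← hA]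
      exact this
    rw [← himg, Measure.addHaar_image_continuousLinearEquiv,
      Measure.addHaar_image_continuousLinearEquiv] at key
    have hfinM : volume M ≠ ∞ := hM.measure_lt_top.ne
    have hfinS : volume (M + seg (ε • v)) ≠ ∞ := (hM.add (seg_isCompact _)).measure_lt_top.ne
    have hfinP : volume (dropZero n '' (A '' M)) ≠ ∞ := by
      apply IsCompact.measure_ne_top
      apply hAM.image
      exact LinearMap.continuous_of_finiteDimensional _
    have key2 := congrArg ENNReal.toReal key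
    rw [ENNReal.toReal_add (ENNReal.mul_ne_top ENNReal.ofReal_ne_top hfinM)
      (ENNReal.mul_ne_top ENNReal.ofReal_ne_top hfinP), ENNReal.toReal_mul, ENNReal.toReal_mul,
      ENNReal.toReal_mul, ENNReal.toReal_ofReal (abs_nonneg _),
      ENNReal.toReal_ofReal (by positivity)] at key2
    have himg2 : ((dropZero n).comp (A : (Fin (n + 1) → ℝ) →ₗ[ℝ] (Fin (n + 1) → ℝ))) '' M =
        dropZero n '' (A '' M) := by
      rw [image_image]
      rfl
    rw [himg2]
    unfold vol
    change d * _ = d * _ + _ at key2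
    have : (volume (M + seg (ε • v))).toReal = (d * (volume M).toReal +
        2 * ε * (volume (dropZero n '' (A '' M))).toReal) / d := by
      rw [← key2]
      field_simp
    rw [this]
    field_simp

end Vale.Agent.P227
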