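import Vale.Agent.P227.SegFormula

open MeasureTheory Set
open scoped ENNReal NNReal Pointwise

namespace Vale.Agent.P227

section general

variable {E F : Type*} [AddCommGroup E] [Module ℝ E] [AddCommGroup F] [Module ℝ F]

/-- The centred zonotope `∑ [-v_j, v_j]`. -/
def Zon {N : ℕ} (v : Fin N → E) : Set E :=
  {x | ∃ c : Fin N → ℝ, (∀ j, |c j| ≤ 1) ∧ x = ∑ j, c j • v j}

theorem zero_mem_Zon {N : ℕ} (v : Fin N → E) : (0 : E) ∈ Zon v :=
  ⟨0, by simp, by simp⟩

theorem Zon_image {N : ℕ} (φ : E →ₗ[ℝ] F) (v : Fin N → E) :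
    φ '' (Zon v) = Zon (fun j => φ (v j)) := by
  ext x
  constructor
  · rintro ⟨_, ⟨c, hc, rfl⟩, rfl⟩
    exact ⟨c, hc, by simp⟩
  · rintro ⟨c, hc, rfl⟩
    exact ⟨∑ j, c j • v j, ⟨c, hc, rfl⟩, by simp⟩

theorem Zon_neg {N : ℕ} (v : Fin N → E) {x : E} (hx : x ∈ Zon v) : -x ∈ Zon v := by
  obtain ⟨c, hc, rfl⟩ := hx
  exact ⟨-c, by simpa using hc, by simp⟩

theorem Zon_succ {N : ℕ} (v : Fin (N + 1) → E) :
    Zon v = Zon (fun j : Fin N => v j.succ) + seg (v 0) := by
  ext x
  simp only [mem_add]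
  constructor
  · rintro ⟨c, hc, rfl⟩
    refine ⟨∑ j : Fin N, c j.succ • v j.succ, ⟨_, fun j => hc j.succ, rfl⟩, c 0 • v 0,
      ⟨c 0, hc 0, rfl⟩, ?_⟩
    rw [Fin.sum_univ_succ, add_comm]
  · rintro ⟨_, ⟨c, hc, rfl⟩, _, ⟨d, hd, rfl⟩, rfl⟩
    refine ⟨Fin.cons d c, ?_, ?_⟩
    · intro j
      refine Fin.cases ?_ (fun j => ?_) j
      · simpa using hd
      · simpa using hc j
    · rw [Fin.sum_univ_succ, add_comm]
      simp

theorem seg_add_seg (v : E) {a b : ℝ} (ha : 0 ≤ a) (hb : 0 ≤ b) :
    seg (a • v) + seg (b • v) = seg ((a + b) • v) := by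
  ext x
  simp only [mem_add]
  constructor
  · rintro ⟨_, ⟨c, hc, rfl⟩, _, ⟨d, hd, rfl⟩, rfl⟩
    rcases (add_nonneg ha hb).eq_or_lt with h0 | h0
    · have ha0 : a = 0 := by linarith
      have hb0 : b = 0 := by linarith
      subst ha0 hb0
      exact ⟨0, by simp, by simp⟩
    · refine ⟨(c * a + d * b) / (a + b), ?_, ?_⟩
      · rw [abs_div, abs_of_pos h0, div_le_one h0]
        calc |c * a + d * b| ≤ |c * a| + |d * b| := abs_add_le _ _
          _ = |c| * a + |d| * b := by rw [abs_mul, abs_mul, abs_of_nonneg ha, abs_of_nonneg hb]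
          _ ≤ 1 * a + 1 * b := by gcongr
          _ = a + b := by ring
      · rw [smul_smul, smul_smul, smul_smul, ← add_smul]
        congr 1
        field_simp
  · rintro ⟨c, hc, rfl⟩
    exact ⟨c • a • v, ⟨c, hc, rfl⟩, c • b • v, ⟨c, hc, rfl⟩, by rw [← smul_add, ← add_smul]⟩

theorem Zon_eq_image {N : ℕ} (v : Fin N → E) :
    Zon v = (fun c : Fin N → ℝ => ∑ j, c j • v j) '' (Set.pi univ fun _ => Icc (-1) 1) := by
  ext x
  constructor
  · rintro ⟨c, hc, rfl⟩
    exact ⟨c, fun j _ => abs_le.1 (hc j), rfl⟩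
  · rintro ⟨c, hc, rfl⟩
    exact ⟨c, fun j => abs_le.2 (hc j (mem_univ j)), rfl⟩

theorem Zon_isCompact {N : ℕ} [TopologicalSpace E] [ContinuousSMul ℝ E] [ContinuousAdd E]
    (v : Fin N → E) : IsCompact (Zon v) := by
  rw [Zon_eq_image]
  apply (isCompact_univ_pi fun _ => isCompact_Icc).image
  fun_prop

theorem Zon_convex {N : ℕ} (v : Fin N → E) : Convex ℝ (Zon v) := by
  rintro _ ⟨c, hc, rfl⟩ _ ⟨d, hd, rfl⟩ s t hs ht hst
  refine ⟨s • c + t • d, ?_, ?_⟩
  · intro j
    calc |(s • c + t • d) j| ≤ |s * c j| + |t * d j| := abs_add_le _ _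
      _ = s * |c j| + t * |d j| := by rw [abs_mul, abs_mul, abs_of_nonneg hs, abs_of_nonneg ht]
      _ ≤ s * 1 + t * 1 := by gcongr; exacts [hc j, hd j]
      _ = 1 := by linarith
  · simp only [Finset.smul_sum, Pi.add_apply, Pi.smul_apply, smul_eq_mul, add_smul,
      Finset.sum_add_distrib, mul_smul]

end general

theorem vol_dim_zero {S : Set (Fin 0 → ℝ)} (hS : S.Nonempty) : vol S = 1 := by
  have : S = univ := by
    obtain ⟨x, hx⟩ := hS
    ext y
    simp only [mem_univ, iff_true]
    rwa [Subsingleton.elim y x]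
  rw [this]
  simp [vol, volume_pi]

/-- volumes of dilated zonotopes are polynomials with nonnegative coefficients -/
theorem zonoPoly (N : ℕ) : ∀ (n : ℕ) (v : Fin N → Fin n → ℝ),
    ∃ (ι : Type) (_ : Fintype ι) (a : ι → ℝ) (e : ι → Finset (Fin N)),
      (∀ i, 0 ≤ a i) ∧ (∀ i, (e i).card = n) ∧
      ∀ t : Fin N → ℝ, (∀ j, 0 ≤ t j) →
        vol (Zon (fun j => t j • v j)) = ∑ i, a i * ∏ j ∈ e i, t j := by
  induction N with
  | zero =>
    intro n v
    cases n with
    | zero =>
      refine ⟨Unit, inferInstance, fun _ => 1, fun _ => ∅, by simp, by simp, ?_⟩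
      intro t ht
      rw [vol_dim_zero ⟨0, zero_mem_Zon _⟩]
      simp
    | succ n =>
      refine ⟨Empty, inferInstance, fun _ => 1, fun _ => ∅, by simp, by simp, ?_⟩
      intro t ht
      have : Zon (fun j => t j • v j) = {0} := by
        ext x
        simp [Zon]
      rw [this]
      simp [vol]
  | succ N ih =>
    intro n v
    cases n with
    | zero =>
      refine ⟨Unit, inferInstance, fun _ => 1, fun _ => ∅, by simp, by simp, ?_⟩
      intro t ht
      rw [vol_dim_zero ⟨0, zero_mem_Zon _⟩]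
      simp
    | succ n =>
      obtain ⟨ι, hι, a, e, ha, he, hvol⟩ := ih (n + 1) (fun j => v j.succ)
      by_cases hv : v 0 = 0
      · refine ⟨ι, hι, a, fun i => (e i).map (Fin.succEmb N), ha, by simpa using he, ?_⟩
        intro t ht
        rw [Zon_succ]
        have : seg (t 0 • v 0) = ({0} : Set (Fin (n + 1) → ℝ)) := by
          ext x
          simp only [seg, hv, smul_zero, mem_ofPred_eq, mem_singleton_iff]
          constructor
          · rintro ⟨c, _, rfl⟩; rfl
          · rintro rfl; exact ⟨0, by simp, rfl⟩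
        rw [this]
        simp only [add_singleton, add_zero, image_id']
        rw [hvol (fun j => t j.succ) (fun j => ht j.succ)]
        simp
      · obtain ⟨φ, c, hc, hφ, hform⟩ := seg_formula (v 0) hv
        obtain ⟨ι', hι', a', e', ha', he', hvol'⟩ := ih n (fun j => φ (v j.succ))
        refine ⟨ι ⊕ ι', inferInstance, Sum.elim a (fun i => c * a' i),
          Sum.elim (fun i => (e i).map (Fin.succEmb N))
            (fun i => insert 0 ((e' i).map (Fin.succEmb N))), ?_, ?_, ?_⟩
        · rintro (i | i)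
          · exact ha i
          · exact mul_nonneg hc.le (ha' i)
        · rintro (i | i)
          · simpa using he i
          · simp only [Sum.elim_inr]
            rw [Finset.card_insert_of_notMem (by simp), Finset.card_map, he' i]
        · intro t ht
          rw [Zon_succ, hform _ (Zon_isCompact _) (Zon_convex _) _ (ht 0),
            hvol (fun j => t j.succ) (fun j => ht j.succ), Zon_image]
          have h3 := hvol' (fun j => t j.succ) (fun j => ht j.succ)
          simp only [map_smul] at h3 ⊢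
          rw [h3]
          simp only [Fintype.sum_sum_type, Sum.elim_inl, Sum.elim_inr]
          congr 1
          · simp
          · rw [Finset.mul_sum, Finset.mul_sum]
            apply Finset.sum_congr rfl
            intro i _
            rw [Finset.prod_insert (by simp)]
            simp
            ring

end Vale.Agent.P227
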