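import Vale.Agent.P227.Zono
import Vale.Agent.P227.PL

open MeasureTheory Set
open scoped ENNReal NNReal Pointwise

namespace Vale.Agent.P227

/-- increment of the volume when adding a segment -/
noncomputable def pp {n : ℕ} (M : Set (Fin n → ℝ)) (w : Fin n → ℝ) : ℝ := vol (M + seg w) - vol M

theorem seg_zero {E : Type*} [AddCommGroup E] [Module ℝ E] : seg (0 : E) = {0} := by
  ext x
  simp only [seg, smul_zero, mem_ofPred_eq, mem_singleton_iff]
  constructor
  · rintro ⟨c, _, rfl⟩; rfl
  · rintro rfl; exact ⟨0, by simp, rfl⟩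

theorem pp_zero {n : ℕ} (M : Set (Fin n → ℝ)) : pp M 0 = 0 := by
  simp [pp, seg_zero]

theorem vol_nonneg {n : ℕ} (M : Set (Fin n → ℝ)) : 0 ≤ vol M := ENNReal.toReal_nonneg

theorem vol_mono {n : ℕ} {A B : Set (Fin n → ℝ)} (hB : IsCompact B) (h : A ⊆ B) :
    vol A ≤ vol B :=
  ENNReal.toReal_mono hB.measure_lt_top.ne (measure_mono h)

theorem vol_smul {n : ℕ} (M : Set (Fin n → ℝ)) {r : ℝ} (hr : 0 ≤ r) :
    vol (r • M) = r ^ n * vol M := by
  unfold vol
  rw [Measure.addHaar_smul, ENNReal.toReal_mul, ENNReal.toReal_ofReal (abs_nonneg _),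
    abs_of_nonneg (by positivity)]
  simp

theorem vol_pos_of_interior {n : ℕ} {M : Set (Fin n → ℝ)} (hM : IsCompact M)
    (hi : (interior M).Nonempty) : 0 < vol M := by
  apply ENNReal.toReal_pos
  · exact (Measure.measure_pos_of_nonempty_interior _ hi).ne'
  · exact hM.measure_lt_top.ne

theorem interior_of_vol_pos {n : ℕ} {M : Set (Fin n → ℝ)} (hM : IsCompact M)
    (hc : Convex ℝ M) (hv : 0 < vol M) : (interior M).Nonempty := by
  by_contra h
  rw [not_nonempty_iff_eq_empty] at h
  have h1 : M ⊆ frontier M := by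
    rw [hM.isClosed.frontier_eq, h]
    simp
  have h2 : volume M = 0 := measure_mono_null h1 (hc.addHaar_frontier _)
  simp [vol, h2] at hv

theorem seg_formula_pp {n : ℕ} (v : Fin (n + 1) → ℝ) (hv : v ≠ 0) :
    ∃ (φ : (Fin (n + 1) → ℝ) →ₗ[ℝ] (Fin n → ℝ)) (c : ℝ), 0 < c ∧ Function.Surjective φ ∧
      ∀ M : Set (Fin (n + 1) → ℝ), IsCompact M → Convex ℝ M → ∀ ε : ℝ, 0 ≤ ε →
        pp M (ε • v) = ε * (c * vol (φ '' M)) := by
  obtain ⟨φ, c, hc, hφ, h⟩ := seg_formula v hv
  refine ⟨φ, c, hc, hφ, fun M hM hcM ε hε => ?_⟩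
  rw [pp, h M hM hcM ε hε]
  ring

theorem pp_smul_right {n : ℕ} {M : Set (Fin (n + 1) → ℝ)} (hM : IsCompact M) (hc : Convex ℝ M)
    (w : Fin (n + 1) → ℝ) {r : ℝ} (hr : 0 ≤ r) : pp M (r • w) = r * pp M w := by
  by_cases hw : w = 0
  · subst hw; simp [pp_zero]
  obtain ⟨φ, c, hc', hφ, h⟩ := seg_formula_pp w hw
  have h1 := h M hM hc 1 zero_le_one
  rw [one_smul, one_mul] at h1
  rw [h M hM hc r hr, h1]

theorem pp_mono {n : ℕ} {A B : Set (Fin (n + 1) → ℝ)} (hA : IsCompact A) (hAc : Convex ℝ A)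
    (hB : IsCompact B) (hBc : Convex ℝ B) (hAB : A ⊆ B) (w : Fin (n + 1) → ℝ) :
    pp A w ≤ pp B w := by
  by_cases hw : w = 0
  · subst hw; simp [pp_zero]
  obtain ⟨φ, c, hc', hφ, h⟩ := seg_formula_pp w hw
  have h1 := h A hA hAc 1 zero_le_one
  have h2 := h B hB hBc 1 zero_le_one
  rw [one_smul, one_mul] at h1 h2
  rw [h1, h2]
  apply mul_le_mul_of_nonneg_left _ hc'.le
  apply vol_mono
  · exact hB.image (LinearMap.continuous_of_finiteDimensional _)
  · exact image_mono hAB

theorem pp_smul_left {n : ℕ} {M : Set (Fin (n + 1) → ℝ)} (hM : IsCompact M) (hc : Convex ℝ M)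
    (w : Fin (n + 1) → ℝ) {r : ℝ} (hr : 0 ≤ r) : pp (r • M) w = r ^ n * pp M w := by
  by_cases hw : w = 0
  · subst hw; simp [pp_zero]
  obtain ⟨φ, c, hc', hφ, h⟩ := seg_formula_pp w hw
  have h1 := h M hM hc 1 zero_le_one
  have h2 := h (r • M) (hM.smul r) (hc.smul r) 1 zero_le_one
  rw [one_smul, one_mul] at h1 h2
  rw [h1, h2, image_smul_set, vol_smul _ hr]
  ring

theorem pp_pos {n : ℕ} {M : Set (Fin (n + 1) → ℝ)} (hM : IsCompact M) (hc : Convex ℝ M)
    (hi : (interior M).Nonempty) {w : Fin (n + 1) → ℝ} (hw : w ≠ 0) : 0 < pp M w := by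
  obtain ⟨φ, c, hc', hφ, h⟩ := seg_formula_pp w hw
  have h1 := h M hM hc 1 zero_le_one
  rw [one_smul, one_mul] at h1
  rw [h1]
  apply mul_pos hc'
  apply vol_pos_of_interior
  · exact hM.image (LinearMap.continuous_of_finiteDimensional _)
  · have hopen : IsOpenMap φ := LinearMap.isOpenMap_of_finiteDimensional φ hφ
    obtain ⟨x, hx⟩ := hi
    refine ⟨φ x, ?_⟩
    rw [mem_interior]
    exact ⟨φ '' interior M, image_mono interior_subset, hopen _ isOpen_interior, ⟨x, hx, rfl⟩⟩

theorem pp_nonneg {n : ℕ} {M : Set (Fin (n + 1) → ℝ)} (hM : IsCompact M) (hc : Convex ℝ M)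
    (w : Fin (n + 1) → ℝ) : 0 ≤ pp M w := by
  by_cases hw : w = 0
  · subst hw; simp [pp_zero]
  obtain ⟨φ, c, hc', hφ, h⟩ := seg_formula_pp w hw
  have h1 := h M hM hc 1 zero_le_one
  rw [one_smul, one_mul] at h1
  rw [h1]
  exact mul_nonneg hc'.le (vol_nonneg _)

/-- upper bound for the volume of a sum with a zonotope -/
theorem vol_add_Zon_le {n : ℕ} (N : ℕ) : ∀ (w : Fin N → Fin (n + 1) → ℝ)
    (M B : Set (Fin (n + 1) → ℝ)), IsCompact M → Convex ℝ M → IsCompact B → Convex ℝ B →
    M + Zon w ⊆ B → vol (M + Zon w) ≤ vol M + ∑ j, pp B (w j) := by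
  induction N with
  | zero =>
    intro w M B hM hMc hB hBc h
    have : Zon w = {0} := by
      ext x
      simp [Zon]
    rw [this]
    simp
  | succ N ih =>
    intro w M B hM hMc hB hBc h
    set M' := M + Zon (fun j : Fin N => w j.succ) with hM'
    have hsub : M' ⊆ B := by
      refine Subset.trans ?_ h
      rw [Zon_succ, ← add_assoc]
      intro x hx
      exact ⟨x, hx, 0, ⟨0, by simp, by simp⟩, by simp⟩
    have hM'c : IsCompact M' := hM.add (Zon_isCompact _)
    have hM'v : Convex ℝ M' := hMc.add (Zon_convex _)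
    have h1 := ih (fun j : Fin N => w j.succ) M B hM hMc hB hBc hsub
    have h2 : vol (M + Zon w) = vol M' + pp M' (w 0) := by
      rw [Zon_succ, ← add_assoc, pp]
      ring
    rw [h2, Fin.sum_univ_succ]
    have h3 := pp_mono hM'c hM'v hB hBc hsub (w 0)
    linarith

/-- first-variation form of Minkowski's first inequality against zonotopes -/
theorem mixed_ineq {n N : ℕ} {M : Set (Fin (n + 1) → ℝ)} (hM : IsCompact M) (hMc : Convex ℝ M)
    (h0 : (0 : Fin (n + 1) → ℝ) ∈ interior M) (w : Fin N → Fin (n + 1) → ℝ)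
    (hC : 0 < vol (Zon w)) :
    (n + 1) + (Real.log (vol (Zon w)) - Real.log (vol M)) ≤ (∑ j, pp M (w j)) / vol M := by
  have hMpos : 0 < vol M := vol_pos_of_interior hM ⟨0, h0⟩
  set P := ∑ j, pp M (w j) with hP
  -- absorption
  obtain ⟨R, hR0, hR⟩ : ∃ R : ℝ, 0 < R ∧ Zon w ⊆ R • M := by
    have hab : Bornology.IsBounded (Zon w) := (Zon_isCompact w).isBounded
    obtain ⟨r, hr0, hr⟩ := Metric.mem_nhds_iff.1 (mem_interior_iff_mem_nhds.1 h0)
    obtain ⟨D, hD0, hD⟩ := hab.exists_pos_norm_le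
    refine ⟨2 * D / r, by positivity, fun x hx => ?_⟩
    rw [mem_smul_set_iff_inv_smul_mem₀ (by positivity)]
    apply hr
    rw [mem_ball_zero_iff, norm_smul, norm_inv, Real.norm_of_nonneg (by positivity)]
    have := hD x hx
    rw [inv_div, div_mul_eq_mul_div, div_lt_iff₀ (by positivity)]
    nlinarith
  have key : ∀ τ : ℝ, 0 < τ →
      (n + 1) + (Real.log (vol (Zon w)) - Real.log (vol M)) ≤
        (1 + τ) * (1 + τ * R) ^ n * (P / vol M) := by
    intro τ hτ
    have hB : M + Zon (fun j => τ • w j) ⊆ (1 + τ * R) • M := by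
      rintro _ ⟨x, hx, y, hy, rfl⟩
      have hy' : y ∈ (τ * R) • M := by
        obtain ⟨c, hc, rfl⟩ := hy
        have : (∑ j, c j • w j) ∈ R • M := hR ⟨c, hc, rfl⟩
        have h2 : (∑ j, c j • τ • w j) = τ • (∑ j, c j • w j) := by
          rw [Finset.smul_sum]
          apply Finset.sum_congr rfl
          intro j _
          rw [smul_comm]
        rw [h2, mul_smul]
        exact smul_mem_smul_set this
      have : M + (τ * R) • M = (1 + τ * R) • M := by
        rw [hMc.add_smul zero_le_one (by positivity), one_smul]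
      rw [← this]
      exact ⟨x, hx, y, hy', rfl⟩
    have h1 := vol_add_Zon_le N (fun j => τ • w j) M ((1 + τ * R) • M) hM hMc (hM.smul _)
      (hMc.smul _) hB
    have h2 : ∑ j, pp ((1 + τ * R) • M) (τ • w j) = τ * (1 + τ * R) ^ n * P := by
      rw [hP, Finset.mul_sum]
      apply Finset.sum_congr rfl
      intro j _
      rw [pp_smul_right (hM.smul _) (hMc.smul _) _ hτ.le, pp_smul_left hM hMc _ (by positivity)]
      ring
    rw [h2] at h1
    -- Brunn-Minkowski
    have hs : 0 < 1 / (1 + τ) := by positivity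
    have ht : 0 < τ / (1 + τ) := by positivity
    have hst : 1 / (1 + τ) + τ / (1 + τ) = 1 := by field_simp
    have hT : IsCompact (M + Zon (fun j => τ • w j)) := hM.add (Zon_isCompact _)
    have hZc : IsCompact (Zon w) := Zon_isCompact w
    have bm := bm_mul hs ht hst (A := M) (B := Zon w)
      (C := (1 / (1 + τ)) • (M + Zon (fun j => τ • w j))) hM.measurableSet hZc.measurableSet
      (hT.smul _).measurableSet (by
        rintro a ha b ⟨c, hc, rfl⟩
        refine ⟨a + ∑ j, c j • τ • w j, ⟨a, ha, _, ⟨c, hc, rfl⟩, rfl⟩, ?_⟩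
        simp only [smul_add, Finset.smul_sum]
        congr 1
        apply Finset.sum_congr rfl
        intro j _
        rw [smul_smul, smul_smul, smul_smul]
        congr 1
        field_simp)
    have bm2 := ENNReal.toReal_mono (hT.smul _).measure_lt_top.ne bm
    rw [ENNReal.toReal_mul, ← ENNReal.toReal_rpow, ← ENNReal.toReal_rpow] at bm2
    change vol M ^ _ * vol (Zon w) ^ _ ≤ vol _ at bm2
    rw [vol_smul _ hs.le] at bm2
    have hTpos : 0 < vol (M + Zon (fun j => τ • w j)) := by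
      refine lt_of_lt_of_le hMpos (vol_mono hT ?_)
      intro x hx
      exact ⟨x, hx, 0, zero_mem_Zon _, by simp⟩
    have bm3 := Real.log_le_log (by positivity) bm2
    rw [Real.log_mul (by positivity) (by positivity), Real.log_mul (by positivity) (by positivity),
      Real.log_rpow hMpos, Real.log_rpow hC, Real.log_pow, one_div, Real.log_inv] at bm3
    have hlog1 : Real.log (vol (M + Zon (fun j => τ • w j))) ≤
        Real.log (vol M) + τ * (1 + τ * R) ^ n * (P / vol M) := by
      have hPn : 0 ≤ P := Finset.sum_nonneg fun j _ => pp_nonneg hM hMc _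
      have e1 : Real.log (vol (M + Zon (fun j => τ • w j))) ≤
          Real.log (vol M * (1 + τ * (1 + τ * R) ^ n * (P / vol M))) := by
        apply Real.log_le_log hTpos
        refine le_trans h1 (le_of_eq ?_)
        field_simp
      rw [Real.log_mul hMpos.ne' (by positivity)] at e1
      have e2 := Real.log_le_sub_one_of_pos
        (show 0 < 1 + τ * (1 + τ * R) ^ n * (P / vol M) by positivity)
      linarith
    have hlog2 : τ / (1 + τ) ≤ Real.log (1 + τ) := by
      have := Real.one_sub_inv_le_log_of_pos (show 0 < 1 + τ by positivity)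
      have e : τ / (1 + τ) = 1 - (1 + τ)⁻¹ := by field_simp; ring
      rw [e]; exact this
    have h5 : (τ / (1 + τ)) * ((n + 1) + (Real.log (vol (Zon w)) - Real.log (vol M))) ≤
        τ * (1 + τ * R) ^ n * (P / vol M) := by
      have e3 : (1 + τ)⁻¹ * Real.log (vol M) = Real.log (vol M) - τ / (1 + τ) * Real.log (vol M) := by
        field_simp; ring
      have e4 : ((n : ℝ) + 1) * (τ / (1 + τ)) ≤ (n + 1) * Real.log (1 + τ) := by gcongr
      push_cast at bm3
      nlinarith [bm3, hlog1, e3, e4]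
    have h6 : (n + 1) + (Real.log (vol (Zon w)) - Real.log (vol M)) =
        ((1 + τ) / τ) * ((τ / (1 + τ)) *
          ((n + 1) + (Real.log (vol (Zon w)) - Real.log (vol M)))) := by
      field_simp
    rw [h6]
    calc ((1 + τ) / τ) * ((τ / (1 + τ)) *
          ((n + 1) + (Real.log (vol (Zon w)) - Real.log (vol M))))
        ≤ ((1 + τ) / τ) * (τ * (1 + τ * R) ^ n * (P / vol M)) := by
          apply mul_le_mul_of_nonneg_left h5 (by positivity)
      _ = (1 + τ) * (1 + τ * R) ^ n * (P / vol M) := by field_simp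
  -- limit
  have hcont : Filter.Tendsto (fun τ : ℝ => (1 + τ) * (1 + τ * R) ^ n * (P / vol M))
      (nhdsWithin 0 (Ioi 0)) (nhds ((1 + 0) * (1 + 0 * R) ^ n * (P / vol M))) := by
    apply Filter.Tendsto.mono_left _ nhdsWithin_le_nhds
    apply Continuous.tendsto
    fun_prop
  have := ge_of_tendsto hcont (by
    filter_upwards [self_mem_nhdsWithin] with τ hτ
    exact key τ hτ)
  simpa using this

end Vale.Agent.P227
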