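import Vale.Agent.P227.Defs

open MeasureTheory

namespace Vale.Agent.P227

/-- Volume (n-dimensional Lebesgue measure) as a real number. -/
noncomputable def evol {n : ℕ} (K : Set (EuclideanSpace ℝ (Fin n))) : ℝ := (volume K).toReal

/-- A zonotope: a finite Minkowski sum of segments `[a j, b j]`. -/
def IsZonotope {n : ℕ} (Z : Set (EuclideanSpace ℝ (Fin n))) : Prop :=
  ∃ (N : ℕ) (a b : Fin N → EuclideanSpace ℝ (Fin n)),
    Z = {x | ∃ y : Fin N → EuclideanSpace ℝ (Fin n),
      (∀ j, y j ∈ segment ℝ (a j) (b j)) ∧ x = ∑ j, y j}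

/-- A zonoid: a Hausdorff limit of zonotopes. -/
def IsZonoid {n : ℕ} (K : Set (EuclideanSpace ℝ (Fin n))) : Prop :=
  ∀ ε : ℝ, 0 < ε → ∃ Z : Set (EuclideanSpace ℝ (Fin n)),
    IsZonotope Z ∧ Metric.hausdorffDist K Z < ε

/-- `ν` sends almost every `x` in `K` to an outer unit normal of `K` at the boundary point
`x / ‖x‖_K`, so that the pushforward under `ν` of Lebesgue measure on `K` is the cone-volume
measure of `K`. -/
def IsConeNormal {n : ℕ} (K : Set (EuclideanSpace ℝ (Fin n)))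
    (ν : EuclideanSpace ℝ (Fin n) → EuclideanSpace ℝ (Fin n)) : Prop :=
  Measurable ν ∧
    ∀ᵐ x ∂(volume.restrict K), ‖ν x‖ = 1 ∧ inner ℝ x (ν x) = gauge K x * supportFn K (ν x)

/-- The integral of `log (h_L / h_K)` against the cone-volume measure of `K`. -/
noncomputable def coneLogInt {n : ℕ} (K L : Set (EuclideanSpace ℝ (Fin n)))
    (ν : EuclideanSpace ℝ (Fin n) → EuclideanSpace ℝ (Fin n)) : ℝ :=
  ∫ x in K, Real.log (supportFn L (ν x) / supportFn K (ν x))

end Vale.Agent.P227
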