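import Vale.Agent.P227.Transfer
import Vale.Agent.P227.Normal

open MeasureTheory Set Metric Filter Topology
open scoped ENNReal NNReal Pointwise

namespace Vale.Agent.P227

variable {n : ℕ}

theorem IsZonotope.exists_center {Z : Set (EV n)} (hZ : IsZonotope Z) :
    ∃ (N : ℕ) (v : Fin N → EV n) (c : EV n), Z = (fun x => c + x) '' Zon v := by
  obtain ⟨N, a, b, rfl⟩ := hZ
  refine ⟨N, fun j => (1 / 2 : ℝ) • (b j - a j), ∑ j, (1 / 2 : ℝ) • (a j + b j), ?_⟩
  ext x
  simp only [mem_ofPred_eq, mem_image]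
  constructor
  · rintro ⟨y, hy, rfl⟩
    have hy' : ∀ j, ∃ d : ℝ, |d| ≤ 1 ∧
        y j = (1 / 2 : ℝ) • (a j + b j) + d • ((1 / 2 : ℝ) • (b j - a j)) := by
      intro j
      obtain ⟨p, q, hp, hq, hpq, hy⟩ := hy j
      refine ⟨q - p, ?_, ?_⟩
      · rw [abs_le]; constructor <;> linarith
      · rw [← hy]
        have : q = 1 - p := by linarith
        subst this
        module
    choose d hd hd2 using hy'
    refine ⟨∑ j, d j • ((1 / 2 : ℝ) • (b j - a j)), ⟨d, hd, rfl⟩, ?_⟩
    rw [← Finset.sum_add_distrib]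
    apply Finset.sum_congr rfl
    intro j _
    rw [hd2 j]
  · rintro ⟨_, ⟨d, hd, rfl⟩, rfl⟩
    refine ⟨fun j => (1 / 2 : ℝ) • (a j + b j) + d j • ((1 / 2 : ℝ) • (b j - a j)), ?_, ?_⟩
    · intro j
      have := abs_le.1 (hd j)
      refine ⟨(1 - d j) / 2, (1 + d j) / 2, by linarith, by linarith, by ring, ?_⟩
      module
    · rw [← Finset.sum_add_distrib]

theorem zonoid_approx {W : Set (EV n)} (hW : SymConvexBody W) (hz : IsZonoid W) {δ : ℝ}
    (hδ : 0 < δ) (hδ1 : δ < 1) :
    ∃ (N : ℕ) (v : Fin N → EV n), (1 - δ) • W ⊆ Zon v ∧ Zon v ⊆ (1 + δ) • W := by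
  obtain ⟨r, hr0, hr⟩ := hW.exists_ball
  obtain ⟨Z, hZ, hdist⟩ := hz (δ * r) (by positivity)
  obtain ⟨N, v, c, rfl⟩ := hZ.exists_center
  set Z₀ := Zon v with hZ₀
  have hZ₀c : IsCompact Z₀ := Zon_isCompact v
  have hZc : IsCompact ((fun x => c + x) '' Z₀) := hZ₀c.image (by fun_prop)
  have hZne : ((fun x => c + x) '' Z₀).Nonempty := ⟨_, 0, zero_mem_Zon v, rfl⟩
  have hfin : hausdorffEDist W ((fun x => c + x) '' Z₀) ≠ ⊤ :=
    hausdorffEDist_ne_top_of_nonempty_of_bounded ⟨0, hW.zero_mem⟩ hZne hW.isCompact.isBounded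
      hZc.isBounded
  -- support function comparison
  have h1 : ∀ u : EV n, ‖u‖ = 1 → supportFn W u ≤ inner ℝ c u + supportFn Z₀ u + δ * r := by
    intro u hu
    apply supportFn_le ⟨0, hW.zero_mem⟩
    intro x hx
    obtain ⟨_, ⟨y, hy, rfl⟩, hxy⟩ := exists_dist_lt_of_hausdorffDist_lt hx hdist hfin
    have e1 : inner ℝ x u = inner ℝ c u + inner ℝ y u + inner ℝ (x - (c + y)) u := by
      rw [← inner_add_left, ← inner_add_left]
      congr 1
      abel
    rw [e1]
    have e2 : inner ℝ (x - (c + y)) u ≤ δ * r := by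
      refine (real_inner_le_norm _ _).trans ?_
      rw [hu, mul_one, ← dist_eq_norm]
      exact hxy.le
    have e3 := inner_le_supportFn hZ₀c hy u
    linarith
  refine ⟨N, v, ?_, ?_⟩
  · rintro _ ⟨x, hx, rfl⟩
    apply mem_of_inner_le_supportFn hZ₀c (Zon_convex v) ⟨0, zero_mem_Zon v⟩
    intro u hu
    have h2 := h1 u hu
    have h3 := h1 (-u) (by rwa [norm_neg])
    rw [hW.supportFn_neg, inner_neg_right] at h3
    have h4 : supportFn Z₀ (-u) = supportFn Z₀ u := by
      rw [supportFn_Zon, supportFn_Zon]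
      simp
    rw [h4] at h3
    have h5 := SymConvexBody.supportFn_ge hr0 hW.isCompact hr u
    rw [hu, mul_one] at h5
    have h6 := inner_le_supportFn hW.isCompact hx u
    simp only
    rw [real_inner_smul_left]
    calc (1 - δ) * inner ℝ x u ≤ (1 - δ) * supportFn W u :=
          mul_le_mul_of_nonneg_left h6 (by linarith)
      _ ≤ supportFn Z₀ u := by nlinarith
  · intro z hz'
    have key : ∀ y ∈ (fun x => c + x) '' Z₀, y ∈ (1 + δ) • W := by
      intro y hy
      obtain ⟨x, hx, hxy⟩ := exists_dist_lt_of_hausdorffDist_lt' hy hdist hfin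
      have e1 : y - x ∈ δ • W := by
        rw [mem_smul_set_iff_inv_smul_mem₀ hδ.ne']
        apply hr
        rw [mem_closedBall_zero_iff, norm_smul, norm_inv, Real.norm_of_nonneg hδ.le,
          inv_mul_le_iff₀ hδ, ← dist_eq_norm, dist_comm]
        exact hxy.le
      rw [hW.convex.add_smul zero_le_one hδ.le, one_smul]
      exact ⟨x, hx, y - x, e1, by simp⟩
    have k1 := key _ ⟨z, hz', rfl⟩
    have k2 := key _ ⟨-z, Zon_neg v hz', rfl⟩
    have k3 : -(c + -z) ∈ (1 + δ) • W := by
      obtain ⟨w, hw, hw2⟩ := k2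
      refine ⟨-w, hW.symm w hw, ?_⟩
      simp only at hw2 ⊢
      rw [smul_neg, hw2]
    have := (hW.convex.smul (1 + δ)) k1 k3 (by norm_num : (0 : ℝ) ≤ 1 / 2)
      (by norm_num : (0 : ℝ) ≤ 1 / 2) (by norm_num)
    convert this using 1
    simp only
    module

/-- Lemma Z for zonoids, log form -/
theorem lemmaZ_zonoid (hn : 0 < n) {s t : ℝ} (hs0 : 0 < s) (ht0 : 0 < t) (hst : s + t = 1)
    {W K L : Set (EV n)} (hW : SymConvexBody W) (hz : IsZonoid W) (hK : SymConvexBody K)
    (hL : SymConvexBody L)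
    (h : ∀ u : EV n, ‖u‖ = 1 →
      s * Real.log (supportFn K u) + t * Real.log (supportFn L u) ≤
        Real.log (supportFn W u)) :
    s * Real.log (evol K) + t * Real.log (evol L) ≤ Real.log (evol W) := by
  have hWpos := evol_pos hW
  have key : ∀ δ : ℝ, 0 < δ → δ < 1 →
      s * Real.log (evol K) + t * Real.log (evol L) ≤
        Real.log (evol W) + n * (Real.log (1 + δ) - Real.log (1 - δ)) := by
    intro δ hδ hδ1
    obtain ⟨N, v, hv1, hv2⟩ := zonoid_approx hW hz hδ hδ1
    have h1δ : 0 < 1 - δ := by linarith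
    have hscale : Zon (fun j => (1 - δ)⁻¹ • v j) = (1 - δ)⁻¹ • Zon v := by
      ext x
      constructor
      · rintro ⟨c, hc, rfl⟩
        refine ⟨∑ j, c j • v j, ⟨c, hc, rfl⟩, ?_⟩
        simp only [Finset.smul_sum]
        apply Finset.sum_congr rfl
        intro j _
        rw [smul_comm]
      · rintro ⟨_, ⟨c, hc, rfl⟩, rfl⟩
        refine ⟨c, hc, ?_⟩
        simp only [Finset.smul_sum]
        apply Finset.sum_congr rfl
        intro j _
        rw [smul_comm]
    have hsub : W ⊆ Zon (fun j => (1 - δ)⁻¹ • v j) := by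
      rw [hscale]
      intro x hx
      rw [mem_smul_set_iff_inv_smul_mem₀ (by positivity), inv_inv]
      exact hv1 (smul_mem_smul_set hx)
    have hZc : IsCompact (Zon (fun j => (1 - δ)⁻¹ • v j)) := Zon_isCompact _
    have hZpos : 0 < evol (Zon (fun j => (1 - δ)⁻¹ • v j)) :=
      lt_of_lt_of_le hWpos (evol_mono hZc hsub)
    have hle := lemmaZ_ev hn hs0 ht0 hst (fun j => (1 - δ)⁻¹ • v j) hK hL hZpos (by
      intro u hu
      refine (h u hu).trans ?_
      have hu0 : u ≠ 0 := by intro h0; rw [h0] at hu; simp at hu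
      apply Real.log_le_log (hW.supportFn_pos hu0)
      exact supportFn_mono hZc ⟨0, hW.zero_mem⟩ hsub u)
    refine hle.trans ?_
    have hvol : evol (Zon (fun j => (1 - δ)⁻¹ • v j)) ≤ ((1 - δ)⁻¹) ^ n * ((1 + δ) ^ n * evol W) := by
      rw [hscale, evol_smul _ (by positivity : (0 : ℝ) ≤ (1 - δ)⁻¹),
        ← evol_smul W (by positivity : (0 : ℝ) ≤ 1 + δ)]
      apply mul_le_mul_of_nonneg_left _ (by positivity)
      exact evol_mono (hW.isCompact.smul _) hv2
    have := Real.log_le_log hZpos hvol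
    rw [Real.log_mul (by positivity) (by positivity), Real.log_mul (by positivity) hWpos.ne',
      Real.log_pow, Real.log_pow, Real.log_inv] at this
    linarith
  have hcont : Tendsto (fun δ : ℝ => Real.log (evol W) +
      n * (Real.log (1 + δ) - Real.log (1 - δ))) (𝓝[>] 0)
      (𝓝 (Real.log (evol W) + n * (Real.log (1 + 0) - Real.log (1 - 0)))) := by
    apply Tendsto.mono_left _ nhdsWithin_le_nhds
    apply Tendsto.const_add
    apply Tendsto.const_mul
    apply Tendsto.sub
    · exact ((Real.continuousAt_log (by norm_num)).tendsto).comp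
        ((continuous_const.add continuous_id).tendsto 0)
    · exact ((Real.continuousAt_log (by norm_num)).tendsto).comp
        ((continuous_const.sub continuous_id).tendsto 0)
  have := ge_of_tendsto hcont (by
    have : Ioo (0 : ℝ) 1 ∈ 𝓝[>] (0 : ℝ) := Ioo_mem_nhdsGT one_pos
    filter_upwards [this] with δ hδ
    exact key δ hδ.1 hδ.2)
  simpa using this

end Vale.Agent.P227
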